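/-
P235-ST (helper742).  Theorem T of helper130 (#25447): a set with a connected random retraction and
bounded rooted contractions can be removed.
-/
import Vale.Agent.P235.H536.Face

set_option linter.all false
set_option autoImplicit false

namespace Vale.Agent.P235.ST.H742

open SimpleGraph Vale.Agent.P235 Finset Vale.Agent.P235.H536

variable {V : Type} {G : SimpleGraph V} {X : Set V}

/-- `π` is a map onto `X`, the identity on `X`, with connected fibres -/
structure RContr (G : SimpleGraph V) (X : Set V) (π : V → V) : Prop where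
  mem : ∀ v, π v ∈ X
  id : ∀ x ∈ X, π x = x
  conn : ∀ v, ∃ q : G.Walk v (π v), ∀ z ∈ q.support, π z = π v

/-- the contracted graph on `X` -/
def rgraph (G : SimpleGraph V) (X : Set V) (π : V → V) : SimpleGraph X where
  Adj x y := x ≠ y ∧ ∃ u v, G.Adj u v ∧ π u = x ∧ π v = y
  symm := ⟨fun x y ⟨h, u, v, huv, hu, hv⟩ => ⟨h.symm, v, u, huv.symm, hv, hu⟩⟩
  loopless := ⟨fun x h => h.1 rfl⟩

theorem rgraph_reach {π : V → V} (h : RContr G X π) {u v : V} (p : G.Walk u v) :
    (rgraph G X π).Reachable ⟨π u, h.mem u⟩ ⟨π v, h.mem v⟩ := by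
  induction p with
  | nil => exact Reachable.refl _
  | @cons u a v hua p ih =>
    by_cases he : π u = π a
    · have : (⟨π u, h.mem u⟩ : X) = ⟨π a, h.mem a⟩ := Subtype.ext he
      rw [this]
      exact ih
    · have h1 : (rgraph G X π).Adj ⟨π u, h.mem u⟩ ⟨π a, h.mem a⟩ :=
        ⟨fun e => he (congrArg Subtype.val e), u, a, hua, rfl, rfl⟩
      exact h1.reachable.trans ih

theorem rgraph_connected {π : V → V} (h : RContr G X π) (hc : G.Connected) (hX : X.Nonempty) :
    (rgraph G X π).Connected := by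
  obtain ⟨x0, hx0⟩ := hX
  have : Nonempty X := ⟨⟨x0, hx0⟩⟩
  refine ⟨fun x y => ?_⟩
  obtain ⟨p⟩ := hc x.1 y.1
  have h1 := rgraph_reach h p
  have e1 : (⟨π x.1, h.mem x.1⟩ : X) = x := Subtype.ext (h.id x.1 x.2)
  have e2 : (⟨π y.1, h.mem y.1⟩ : X) = y := Subtype.ext (h.id y.1 y.2)
  rwa [e1, e2] at h1

/-- `G` with all edges inside `X` added -/
def fillX (G : SimpleGraph V) (X : Set V) : SimpleGraph V where
  Adj u v := u ≠ v ∧ (G.Adj u v ∨ (u ∈ X ∧ v ∈ X))
  symm := ⟨fun u v h => ⟨h.1.symm, h.2.elim (fun h => Or.inl h.symm) fun h => Or.inr ⟨h.2, h.1⟩⟩⟩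
  loopless := ⟨fun u h => h.1 rfl⟩

theorem fill_reachOff {u v : V} (h : ReachOff (fillX G X) X u v) : ReachOff G X u v := by
  obtain ⟨p, hp⟩ := h
  induction p with
  | nil => exact ReachOff.refl (hp _ (by simp))
  | @cons u a v hua p ih =>
    have hu : u ∉ X := hp u (by simp)
    have ha : a ∉ X := hp a (by simp)
    have h1 : G.Adj u a := hua.2.resolve_right fun h => hu h.1
    exact (ReachOff.adj hu ha h1).trans (ih fun b hb => hp b (by simp [hb]))

/-- **The set step with a factor.**  Some nonexpansive `L₁` map of the whole graph contracts the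
distances inside `X` by at most `L`, and the components of `G - X` have `c₁ ≤ B`. -/
theorem set_factor [Finite V] (hc : G.Connected) (hX : X.Nonempty) {B : ℝ} (hB : 1 ≤ B)
    (hcomp : ∀ u ∉ X, DistortionLE (G.induce (compSet G X u)) B) {L : ℝ} (hL : 1 ≤ L)
    {ℓ : Sym2 V → ℝ} (hℓ : ∀ e ∈ G.edgeSet, 0 < ℓ e) {F : V → V → ℝ} (hF : IsL1 F)
    (hFl : ∀ u v, G.Adj u v → F u v ≤ ℓ s(u, v))
    (hFX : ∀ u ∈ X, ∀ v ∈ X, pathDist G ℓ u v ≤ L * F u v) :
    EmbedsL1 (pathDist G ℓ) (3400000 * B * L) := by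
  classical
  have hd := pathDist_isMet hc hℓ
  have hL0 : 0 < L := by linarith
  let G' := fillX G X
  let ℓ' : Sym2 V → ℝ := fun e => if ∀ v ∈ e, v ∈ X then Sym2.lift ⟨F, hF.symm⟩ e else ℓ e
  have e1 : ∀ u v, u ∈ X → v ∈ X → ℓ' s(u, v) = F u v := by
    intro u v hu hv
    have h1 : ∀ w ∈ s(u, v), w ∈ X := by
      intro w hw
      rcases Sym2.mem_iff.1 hw with rfl | rfl
      · exact hu
      · exact hv
    show (if ∀ w ∈ s(u, v), w ∈ X then Sym2.lift ⟨F, hF.symm⟩ s(u, v) else ℓ s(u, v)) = _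
    rw [if_pos h1]
    rfl
  have e2 : ∀ u v, ¬ (u ∈ X ∧ v ∈ X) → ℓ' s(u, v) = ℓ s(u, v) := by
    intro u v h
    have h1 : ¬ ∀ w ∈ s(u, v), w ∈ X := fun hw =>
      h ⟨hw u (Sym2.mem_mk_left u v), hw v (Sym2.mem_mk_right u v)⟩
    show (if ∀ w ∈ s(u, v), w ∈ X then Sym2.lift ⟨F, hF.symm⟩ s(u, v) else ℓ s(u, v)) = _
    rw [if_neg h1]
  have hadj : ∀ u v, G.Adj u v → G'.Adj u v := fun u v h => ⟨h.ne, Or.inl h⟩
  have hc' : G'.Connected := hc.mono hadj
  have hlow : ∀ u v, G'.Adj u v → pathDist G ℓ u v ≤ L * ℓ' s(u, v) := by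
    intro u v h
    by_cases hX' : u ∈ X ∧ v ∈ X
    · rw [e1 u v hX'.1 hX'.2]
      exact hFX u hX'.1 v hX'.2
    · rw [e2 u v hX']
      have h1 : G.Adj u v := h.2.resolve_right hX'
      have h2 := hℓ _ (G.mem_edgeSet.mpr h1)
      have h3 := pathDist_adj hℓ h1
      nlinarith
  have hℓ' : ∀ e ∈ G'.edgeSet, 0 < ℓ' e := by
    intro e
    induction e using Sym2.ind with
    | _ u v =>
      intro he
      have h : G'.Adj u v := he
      have h1 := hlow u v h
      have h2 := hd.pos u v h.1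
      by_contra hneg
      push Not at hneg
      have : L * ℓ' s(u, v) ≤ 0 := mul_nonpos_of_nonneg_of_nonpos hL0.le hneg
      linarith
  have hup : ∀ u v, G.Adj u v → ℓ' s(u, v) ≤ ℓ s(u, v) := by
    intro u v h
    by_cases hX' : u ∈ X ∧ v ∈ X
    · rw [e1 u v hX'.1 hX'.2]
      exact hFl u v h
    · rw [e2 u v hX']
  have hd' := pathDist_isMet hc' hℓ'
  have hB0 : 0 < B := by linarith
  obtain ⟨Ω, m, μ, f, hf⟩ := pointed_embeds (K := (96 * B + 112) + 2) (by positivity) hc' hℓ'
    (fun H hH hHl => pointed_step_set hc' hℓ' hH hHl hX hF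
      (fun u v h => by
        by_cases hX' : u ∈ X ∧ v ∈ X
        · rw [e1 u v hX'.1 hX'.2]
        · rw [e2 u v hX']
          exact hFl u v (h.2.resolve_right hX'))
      (fun u hu v hv => by
        rcases eq_or_ne u v with rfl | hne
        · rw [hd'.self]
          exact hF.nonneg _ _
        · have h1 : G'.Adj u v := ⟨hne, Or.inr ⟨hu, hv⟩⟩
          have h2 := pathDist_adj hℓ' h1
          rwa [e1 u v hu hv] at h2)
      (by positivity)
      fun u hu H' hH' hHl' => pointed_leaf hB0 (comp_connected hu) (induce_pos hℓ' _) hH' hHl'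
        ((hcomp u hu).emb (fun z => ⟨z.1, fill_reachOff z.2⟩)
          (fun a b h => Subtype.ext (congrArg (fun z : compSet G X u => z.1) h))
          (fun a b h => by
            have h1 : G'.Adj a.1 b.1 := h
            exact h1.2.resolve_right fun h2 => ReachOff.right a.2 h2.1)
          (comp_connected hu) (comp_connected hu)))
  have hlo : ∀ x y, pathDist G ℓ x y ≤ L * pathDist G' ℓ' x y := fun x y =>
    pathDist_semi hc' hL0 hd.self hd.tri hlow x y
  have hhi : ∀ x y, pathDist G' ℓ' x y ≤ pathDist G ℓ x y := by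
    intro x y
    have h1 := pathDist_semi (ρ := pathDist G' ℓ') (K := 1) hc one_pos hd'.self hd'.tri
      (fun u v huv => by
        rw [one_mul]
        exact (pathDist_adj hℓ' (hadj u v huv)).trans (hup u v huv)) x y
    rwa [one_mul] at h1
  refine ⟨Ω, m, μ, fun x => L • f x, fun x y => ?_⟩
  have hn : ‖L • f x - L • f y‖ = L * ‖f x - f y‖ := by
    rw [← smul_sub, norm_smul, Real.norm_eq_abs, abs_of_pos hL0]
  rw [hn]
  refine ⟨(hlo x y).trans (mul_le_mul_of_nonneg_left (hf x y).1 hL0.le), ?_⟩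
  have h0 : 0 ≤ pathDist G ℓ x y := hd.nonneg x y
  calc L * ‖f x - f y‖ ≤ L * (16000 * ((96 * B + 112) + 2) * pathDist G' ℓ' x y) :=
        mul_le_mul_of_nonneg_left (hf x y).2 hL0.le
    _ ≤ L * (16000 * ((96 * B + 112) + 2) * pathDist G ℓ x y) := by
        refine mul_le_mul_of_nonneg_left (mul_le_mul_of_nonneg_left (hhi x y) (by positivity)) hL0.le
    _ ≤ L * (3400000 * B * pathDist G ℓ x y) := by
        refine mul_le_mul_of_nonneg_left (mul_le_mul_of_nonneg_right ?_ h0) hL0.le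
        linarith
    _ = 3400000 * B * L * pathDist G ℓ x y := by ring

/-- **Theorem T (helper130).**  If for all positive lengths there is a connected random retraction
onto `X` which stretches every edge at most `C` times in expectation, every rooted contraction onto
`X` has `c₁ ≤ A` and the components of `G - X` have `c₁ ≤ B`, then `c₁(G) ≤ 3400000 B A C`. -/
theorem thmT [Finite V] (hc : G.Connected) (hX : X.Nonempty) {A B C : ℝ} (hA : 1 ≤ A)
    (hB : 1 ≤ B) (hC : 1 ≤ C)
    (hret : ∀ ℓ : Sym2 V → ℝ, (∀ e ∈ G.edgeSet, 0 < ℓ e) →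
      ∃ (ι : Type) (_ : Fintype ι) (w : ι → ℝ) (π : ι → V → V), (∀ i, 0 ≤ w i) ∧ ∑ i, w i = 1 ∧
        (∀ i v, π i v ∈ X) ∧ (∀ i, ∀ x ∈ X, π i x = x) ∧
        (∀ i v, ∃ q : G.Walk v (π i v), ∀ z ∈ q.support, π i z = π i v) ∧
        ∀ u v, G.Adj u v → ∑ i, w i * pathDist G ℓ (π i u) (π i v) ≤ C * ℓ s(u, v))
    (hM : ∀ π, RContr G X π → DistortionLE (rgraph G X π) A)
    (hcomp : ∀ u ∉ X, DistortionLE (G.induce (compSet G X u)) B) :
    DistortionLE G (3400000 * B * (A * C)) := by
  classical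
  intro ℓ hℓ
  have hd := pathDist_isMet hc hℓ
  obtain ⟨ι, _, w, π, hw, hs, hmem, hid, hconn, hexp⟩ := hret ℓ hℓ
  have hR : ∀ i, RContr G X (π i) := fun i => ⟨hmem i, hid i, hconn i⟩
  set m : Sym2 X → ℝ := torsoLen (pathDist G ℓ) X with hm
  have hmk : ∀ x y : X, m s(x, y) = pathDist G ℓ x.1 y.1 := fun x y => torsoLen_mk hd.symm x y
  have hmpos : ∀ i, ∀ e ∈ (rgraph G X (π i)).edgeSet, 0 < m e := by
    intro i e
    induction e using Sym2.ind with
    | _ x y =>
      intro he
      have h : (rgraph G X (π i)).Adj x y := he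
      rw [hmk]
      exact hd.pos _ _ fun e => h.1 (Subtype.ext e)
  have hMc : ∀ i, (rgraph G X (π i)).Connected := fun i => rgraph_connected (hR i) hc hX
  have hρ : ∀ i, ∃ ρ : X → X → ℝ, IsL1 ρ ∧
      (∀ x y, pathDist (rgraph G X (π i)) m x y ≤ ρ x y) ∧
      ∀ x y, ρ x y ≤ A * pathDist (rgraph G X (π i)) m x y := by
    intro i
    obtain ⟨ρ, h1, h2, h3, -⟩ := (hM (π i) (hR i) m (hmpos i)).toL1S
    exact ⟨ρ, h1.isL1, h2, h3⟩
  choose ρ hρI hρl hρu using hρ
  have hA0 : 0 < A := by linarith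
  have hC0 : 0 < C := by linarith
  have hAC : 1 ≤ A * C := by nlinarith
  have hAC0 : 0 < A * C := by positivity
  have hMd : ∀ i, IsMet (pathDist (rgraph G X (π i)) m) := fun i =>
    pathDist_isMet (hMc i) (hmpos i)
  -- distances of `G` on `X` are at most those of the contraction
  have hlow : ∀ i (x y : X), pathDist G ℓ x.1 y.1 ≤ ρ i x y := by
    intro i x y
    refine le_trans ?_ (hρl i x y)
    have h1 := pathDist_semi (ℓ := m) (ρ := fun x y : X => pathDist G ℓ x.1 y.1) (K := 1) (hMc i)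
      one_pos
      (fun x => hd.self _) (fun x y z => hd.tri _ _ _)
      (fun u v huv => by rw [one_mul, hmk]) x y
    rwa [one_mul] at h1
  let p : ι → V → X := fun i v => ⟨π i v, hmem i v⟩
  let F0 : V → V → ℝ := fun u v => ∑ i, w i * ρ i (p i u) (p i v)
  have hF0 : IsL1 F0 := IsL1.sum Finset.univ (fun i (u v : V) => w i * ρ i (p i u) (p i v))
    fun i _ => ((hρI i).comap (p i)).smul (hw i)
  have hF : IsL1 (fun u v => (A * C)⁻¹ * F0 u v) := hF0.smul (by positivity)
  have hF0l : ∀ u v, G.Adj u v → F0 u v ≤ A * C * ℓ s(u, v) := by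
    intro u v huv
    have h1 : ∀ i, ρ i (p i u) (p i v) ≤ A * pathDist G ℓ (π i u) (π i v) := by
      intro i
      refine (hρu i _ _).trans (mul_le_mul_of_nonneg_left ?_ hA0.le)
      by_cases he : π i u = π i v
      · have : p i u = p i v := Subtype.ext he
        rw [this, (hMd i).self]
        exact hd.nonneg _ _
      · have h2 : (rgraph G X (π i)).Adj (p i u) (p i v) :=
          ⟨fun e => he (congrArg Subtype.val e), u, v, huv, rfl, rfl⟩
        have h3 := pathDist_adj (hmpos i) h2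
        rwa [hmk] at h3
    calc F0 u v ≤ ∑ i, w i * (A * pathDist G ℓ (π i u) (π i v)) :=
          Finset.sum_le_sum fun i _ => mul_le_mul_of_nonneg_left (h1 i) (hw i)
      _ = A * ∑ i, w i * pathDist G ℓ (π i u) (π i v) := by
          rw [Finset.mul_sum]
          exact Finset.sum_congr rfl fun i _ => by ring
      _ ≤ A * (C * ℓ s(u, v)) := mul_le_mul_of_nonneg_left (hexp u v huv) hA0.le
      _ = A * C * ℓ s(u, v) := by ring
  refine set_factor hc hX hB hcomp hAC hℓ hF (fun u v huv => ?_) fun u hu v hv => ?_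
  · rw [inv_mul_le_iff₀ hAC0]
    exact hF0l u v huv
  · rw [← mul_assoc, mul_inv_cancel₀ hAC0.ne', one_mul]
    calc pathDist G ℓ u v = ∑ i, w i * pathDist G ℓ u v := by
          rw [← Finset.sum_mul, hs, one_mul]
      _ ≤ F0 u v := Finset.sum_le_sum fun i _ => mul_le_mul_of_nonneg_left (by
          have h1 := hlow i (p i u) (p i v)
          have e1 : (p i u).1 = u := hid i u hu
          have e2 : (p i v).1 = v := hid i v hv
          rwa [e1, e2] at h1) (hw i)

end Vale.Agent.P235.ST.H742
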