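/-
P235-ST (helper742).  Planar graphs with a vortex, from theorem T (helper130, #25447).
-/
import Vale.Agent.P235.ST.H742.Contr
import Vale.Agent.P235.H957.Final

set_option linter.all false
set_option autoImplicit false

namespace Vale.Agent.P235.ST.H742

open SimpleGraph Vale.Agent.P235 Finset

variable {V : Type} {G : SimpleGraph V} {X : Set V}

/-- For `a < b < c < d`, every walk from `x a` to `x c` which avoids `W` meets every walk from `x b`
to `x d` which avoids `W`. -/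
def CrosslessOff (G : SimpleGraph V) (W : Set V) {n : ℕ} (x : Fin n → V) : Prop :=
  ∀ a b c d : Fin n, a < b → b < c → c < d →
    ∀ (p : G.Walk (x a) (x c)) (q : G.Walk (x b) (x d)), (∀ z ∈ p.support, z ∉ W) →
      (∀ z ∈ q.support, z ∉ W) → ∃ z, z ∈ p.support ∧ z ∈ q.support

/-- the vortex `W` of depth `w` on the vertices `x 0, …, x (n - 1)` -/
structure Vortex (G : SimpleGraph V) (W : Set V) {n : ℕ} (x : Fin n → V) (B : Fin n → Finset V)
    (w : ℕ) : Prop where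
  inj : Function.Injective x
  out : ∀ i, x i ∉ W
  root : ∀ i, x i ∈ B i
  sub : ∀ i, ∀ v ∈ B i, v ∈ W ∨ v ∈ Set.range x
  cov : ∀ v ∈ W, ∃ i, v ∈ B i
  int : ∀ v i j k, i ≤ j → j ≤ k → v ∈ B i → v ∈ B k → v ∈ B j
  edge : ∀ u v, G.Adj u v → u ∈ W → ∃ i, u ∈ B i ∧ v ∈ B i
  card : ∀ i, (B i).card ≤ w + 1
  cross : CrosslessOff G W x

/-- the literal of `tw_noncross` -/
def TwNon : Prop := ∀ (X : Type) (_ : Finite X) (M : SimpleGraph X) (n w : ℕ) (_ : 0 < n)
  (x : Fin n → X) (B : Fin n → Finset X), (∀ i, x i ∈ B i) → (∀ i, (B i).card ≤ w + 1) →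
  (∀ v, ∃ i, v ∈ B i) → (∀ v i j k, i ≤ j → j ≤ k → v ∈ B i → v ∈ B k → v ∈ B j) →
  (∀ u v, M.Adj u v → (∃ i, u ∈ B i ∧ v ∈ B i) ∨ ∃ i j, u = x i ∧ v = x j) →
  (∀ a b c d : Fin n, a < b → b < c → c < d → M.Adj (x a) (x c) →
    (∃ i, x a ∈ B i ∧ x c ∈ B i) ∨ ¬ M.Adj (x b) (x d) ∨ ∃ i, x b ∈ B i ∧ x d ∈ B i) →
  TreewidthLE M (3 * w + 2)

theorem fibre_walk {π : V → V} (h : RContr G X π) {u v : V} (huv : G.Adj u v) :
    ∃ p : G.Walk (π u) (π v), ∀ z ∈ p.support, π z = π u ∨ π z = π v := by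
  obtain ⟨p, hp⟩ := h.conn u
  obtain ⟨q, hq⟩ := h.conn v
  refine ⟨p.reverse.append (Walk.cons huv q), fun z hz => ?_⟩
  rw [Walk.mem_support_append_iff] at hz
  rcases hz with hz | hz
  · rw [Walk.support_reverse, List.mem_reverse] at hz
    exact Or.inl (hp z hz)
  · rw [Walk.support_cons, List.mem_cons] at hz
    rcases hz with rfl | hz
    · exact Or.inl rfl
    · exact Or.inr (hq z hz)

variable {W : Set V} {n w : ℕ} {x : Fin n → V} {B : Fin n → Finset V}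

/-- the fibre of a vertex of the vortex is a point -/
theorem Vortex.fibre (hv : Vortex G W x B w) {π : V → V} (h : RContr G (W ∪ Set.range x) π)
    {v : V} (hW : π v ∈ W) : v = π v := by
  have key : ∀ (u y : V) (q : G.Walk u y), y ∈ W → (∀ z ∈ q.support, π z = y) → u = y := by
    intro u y q
    induction q with
    | nil => intro _ _; rfl
    | @cons u a y hua q ih =>
      intro hy hq
      have ha : a = y := ih hy fun z hz => hq z (by simp [hz])
      subst ha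
      obtain ⟨i, -, hi⟩ := hv.edge a u hua.symm hy
      have h1 : π u = a := hq u (by simp)
      have h2 : π u = u := h.id u (hv.sub i u hi)
      rw [← h2, h1]
  obtain ⟨q, hq⟩ := h.conn v
  exact key v (π v) q hW hq

theorem Vortex.treewidth [Finite V] (hTw : TwNon) (hn : 0 < n) (hv : Vortex G W x B w)
    {π : V → V} (h : RContr G (W ∪ Set.range x) π) :
    TreewidthLE (rgraph G (W ∪ Set.range x) π) (3 * w + 2) := by
  classical
  set X : Set V := W ∪ Set.range x with hX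
  have hxX : ∀ i, x i ∈ X := fun i => Or.inr ⟨i, rfl⟩
  have hWX : ∀ v ∈ W, v ∈ X := fun v hv => Or.inl hv
  have hBX : ∀ i, ∀ v ∈ B i, v ∈ X := fun i v hvi => hv.sub i v hvi
  have hmem : ∀ i (z : X), z ∈ (B i).subtype (· ∈ X) ↔ z.1 ∈ B i := fun i z => Finset.mem_subtype
  have hno : ∀ z i, π z = x i → z ∉ W := by
    intro z i hz hzW
    have h1 : π z = z := h.id z (hWX z hzW)
    exact hv.out i (by rw [← hz, h1]; exact hzW)
  -- edges at a vortex vertex
  have hWe : ∀ u v, G.Adj u v → π u ∈ W → ∃ i, π u ∈ B i ∧ π v ∈ B i := by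
    intro u v huv hu
    have e1 : u = π u := hv.fibre h hu
    have huW : u ∈ W := by rw [e1]; exact hu
    obtain ⟨i, h1, h2⟩ := hv.edge u v huv huW
    have e2 : π v = v := h.id v (hBX i v h2)
    exact ⟨i, by rw [← e1]; exact h1, by rw [e2]; exact h2⟩
  refine hTw X inferInstance _ n w hn (fun i => ⟨x i, hxX i⟩) (fun i => (B i).subtype (· ∈ X))
    (fun i => (hmem _ _).2 (hv.root i)) (fun i => ?_) ?_ ?_ ?_ ?_
  · rw [Finset.card_subtype]
    exact (Finset.card_filter_le _ _).trans (hv.card i)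
  · rintro ⟨v, hvX⟩
    rcases hvX with hvW | ⟨i, rfl⟩
    · obtain ⟨i, hi⟩ := hv.cov v hvW
      exact ⟨i, (hmem _ _).2 hi⟩
    · exact ⟨i, (hmem _ _).2 (hv.root i)⟩
  · intro v i j k hij hjk h1 h2
    exact (hmem _ _).2 (hv.int v.1 i j k hij hjk ((hmem _ _).1 h1) ((hmem _ _).1 h2))
  · rintro ⟨y1, hy1⟩ ⟨y2, hy2⟩ ⟨-, u, v, huv, hu, hv'⟩
    have hu' : π u = y1 := hu
    have hv'' : π v = y2 := hv'
    subst hu'
    subst hv''
    rcases hy1 with hW1 | ⟨i, hi⟩
    · obtain ⟨i, h1, h2⟩ := hWe u v huv hW1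
      exact Or.inl ⟨i, (hmem _ _).2 h1, (hmem _ _).2 h2⟩
    · rcases hy2 with hW2 | ⟨j, hj⟩
      · obtain ⟨i, h1, h2⟩ := hWe v u huv.symm hW2
        exact Or.inl ⟨i, (hmem _ _).2 h2, (hmem _ _).2 h1⟩
      · exact Or.inr ⟨i, j, Subtype.ext hi.symm, Subtype.ext hj.symm⟩
  · rintro a b c d hab hbc hcd ⟨-, u, v, huv, hu, hv'⟩
    refine Or.inr (Or.inl ?_)
    rintro ⟨-, u', v', huv', hu', hv''⟩
    have e1 : π u = x a := hu
    have e2 : π v = x c := hv'
    have e3 : π u' = x b := hu'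
    have e4 : π v' = x d := hv''
    obtain ⟨p, hp⟩ := fibre_walk h huv
    obtain ⟨q, hq⟩ := fibre_walk h huv'
    have hcr := hv.cross a b c d hab hbc hcd
    rw [← e1, ← e2, ← e3, ← e4] at hcr
    obtain ⟨z, hz1, hz2⟩ := hcr p q
      (fun z hz => (hp z hz).elim (fun e => hno z a (e.trans e1)) fun e => hno z c (e.trans e2))
      (fun z hz => (hq z hz).elim (fun e => hno z b (e.trans e3)) fun e => hno z d (e.trans e4))
    have hne : ∀ {i j : Fin n}, i < j → x i ≠ x j := fun hij e => hij.ne (hv.inj e)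
    rcases hp z hz1 with h1 | h1 <;> rcases hq z hz2 with h2 | h2
    · exact hne hab (by rw [← e1, ← e3, ← h1, ← h2])
    · exact hne (hab.trans (hbc.trans hcd)) (by rw [← e1, ← e4, ← h1, ← h2])
    · exact hne hbc (by rw [← e2, ← e3, ← h1, ← h2])
    · exact hne hcd (by rw [← e2, ← e4, ← h1, ← h2])

/-- the literal of `conRetr` (with a class of graphs instead of the plane graphs) -/
def ConRetr (Q : ∀ (V : Type), SimpleGraph V → Prop) : Prop := ∃ C : ℝ, 1 ≤ C ∧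
  ∀ (V : Type) [Finite V] (G : SimpleGraph V) (ℓ : Sym2 V → ℝ), G.Connected →
    (∀ e ∈ G.edgeSet, 0 < ℓ e) → ∀ X : Set V, X.Nonempty →
    (∀ u ∉ X, Q _ (G.induce (compSet G X u))) →
    ∃ (ι : Type) (_ : Fintype ι) (w : ι → ℝ) (π : ι → V → V), (∀ i, 0 ≤ w i) ∧ ∑ i, w i = 1 ∧
      (∀ i v, π i v ∈ X) ∧ (∀ i, ∀ x ∈ X, π i x = x) ∧
      (∀ i v, ∃ q : G.Walk v (π i v), ∀ z ∈ q.support, π i z = π i v) ∧
      ∀ u v, G.Adj u v → ∑ i, w i * pathDist G ℓ (π i u) (π i v) ≤ C * ℓ s(u, v)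

/-- **Graphs of a class with a vortex of depth `w`** -/
theorem vortex_bounded (hTw : TwNon) {Q : ∀ (V : Type), SimpleGraph V → Prop}
    (hR : ConRetr Q)
    (hQ : ∃ K : ℝ, ∀ (V : Type) [Finite V] (G : SimpleGraph V), G.Connected → Q V G →
      DistortionLE G K) (w : ℕ) :
    ∃ K : ℝ, ∀ (V : Type) [Finite V] (G : SimpleGraph V), G.Connected →
      (∃ (W : Set V) (n : ℕ) (x : Fin n → V) (B : Fin n → Finset V), 0 < n ∧ Vortex G W x B w ∧
        ∀ u ∉ W ∪ Set.range x, Q _ (G.induce (compSet G (W ∪ Set.range x) u))) →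
      DistortionLE G K := by
  obtain ⟨C, hC1, hC⟩ := hR
  obtain ⟨K0, hK0⟩ := hQ
  obtain ⟨A, hA⟩ := H957.tw_bounded (3 * w + 2)
  refine ⟨3400000 * max K0 1 * (max A 1 * C), ?_⟩
  rintro V _ G hc ⟨W, n, x, B, hn, hv, hcomp⟩
  have hX : (W ∪ Set.range x).Nonempty := ⟨x ⟨0, hn⟩, Or.inr ⟨_, rfl⟩⟩
  refine thmT hc hX (le_max_right _ _) (le_max_right _ _) hC1
    (fun ℓ hℓ => hC V G ℓ hc hℓ _ hX hcomp) (fun π hπ => ?_) fun u hu => ?_
  · exact (hA _ _ (rgraph_connected hπ hc hX) (hv.treewidth hTw hn hπ)).mono (le_max_left _ _)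
  · exact (hK0 _ _ (comp_connected hu) (hcomp u hu)).mono (le_max_left _ _)

end Vale.Agent.P235.ST.H742
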