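import Vale.Agent.P235.ST.H317.Defs

/-! P235, (ST) O(1): row r1 (clocks: walks inside a band). helper742. -/

namespace Vale.Agent.P235.STO.H742

open SimpleGraph

variable {V : Type} (W : LWorld V)

theorem reach_of_walk (k m : ℕ) {x y : V} (g : W.G.Walk x y)
    (h : ∀ z ∈ g.support, W.bi k m z = W.bi k m x) :
    (W.Bg k m).Reachable x y ∧ (W.Bg k m).dist x y ≤ g.length := by
  have key : ∃ q : (W.Bg k m).Walk x y, q.length = g.length := by
    induction g with
    | nil => exact ⟨.nil, rfl⟩
    | cons hadj g ih =>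
      rename_i a b c
      have hb : W.bi k m b = W.bi k m a := h b (by simp)
      obtain ⟨q, hq⟩ := ih fun z hz => by
        rw [h z (by simp [hz]), hb]
      have hA : (W.Bg k m).Adj a b := ⟨hadj, hb.symm⟩
      exact ⟨Walk.cons hA q, by simp [hq]⟩
  obtain ⟨q, hq⟩ := key
  exact ⟨q.reachable, hq ▸ SimpleGraph.dist_le q⟩

theorem bi_of_reach (k m : ℕ) {x y : V} (h : (W.Bg k m).Reachable x y) :
    W.bi k m x = W.bi k m y ∧ W.G.dist x y ≤ (W.Bg k m).dist x y := by
  have hle : W.Bg k m ≤ W.G := fun a b hab => hab.1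
  obtain ⟨q, hq⟩ := h.exists_walk_length_eq_dist
  refine ⟨?_, ?_⟩
  · clear hq
    induction q with
    | nil => rfl
    | cons hadj g ih => exact hadj.2.trans (ih ⟨g⟩)
  · rw [← hq]
    have := SimpleGraph.dist_le (q.mapLe hle)
    rwa [Walk.length_map] at this

theorem reach_of_L_le (k m : ℕ) {p a b : V} (hp : p ∈ W.N) (ha : a ∈ W.L p) (hb : b ∈ W.L p)
    (h : W.bi k m a = W.bi k m b) (hab : W.u a ≤ W.u b) :
    (W.Bg k m).Reachable a b ∧ ((W.Bg k m).dist a b : ℤ) ≤ |W.u a - W.u b| := by
  obtain ⟨q, hq, -⟩ := W.L_path p hp a ha b hb hab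
  -- heights on `q` are between
  have hlip : ∀ {x y : V} (g : W.G.Walk x y), |W.u x - W.u y| ≤ g.length := by
    intro x y g
    induction g with
    | nil => simp
    | cons hadj g ih =>
      rename_i a b c
      rw [Walk.length_cons]
      have := W.unit _ _ hadj
      push_cast
      calc |W.u a - W.u c| ≤ |W.u a - W.u b| + |W.u b - W.u c| := abs_sub_le _ _ _
        _ ≤ 1 + g.length := by linarith
        _ = g.length + 1 := by ring
  have hbt : ∀ z ∈ q.support, W.u a ≤ W.u z ∧ W.u z ≤ W.u b := by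
    classical
    intro z hz
    have h1 := hlip (q.takeUntil z hz)
    have h2 := hlip (q.dropUntil z hz)
    have h3 : (q.takeUntil z hz).length + (q.dropUntil z hz).length = q.length := by
      rw [← Walk.length_append, Walk.take_spec]
    have h4 := abs_le.1 h1
    have h5 := abs_le.1 h2
    have h6 : ((q.takeUntil z hz).length : ℤ) + (q.dropUntil z hz).length = q.length := by
      exact_mod_cast h3
    constructor <;> linarith
  have hbi : ∀ z ∈ q.support, W.bi k m z = W.bi k m a := by
    intro z hz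
    obtain ⟨h1, h2⟩ := hbt z hz
    have hpos : 0 < th k := by unfold th; positivity
    unfold LWorld.bi at h ⊢
    apply le_antisymm
    · rw [h]
      exact Int.ediv_le_ediv hpos (by linarith)
    · exact Int.ediv_le_ediv hpos (by linarith)
  obtain ⟨h1, h2⟩ := reach_of_walk W k m q hbi
  refine ⟨h1, ?_⟩
  rw [abs_sub_comm, abs_of_nonneg (by linarith), ← hq]
  exact_mod_cast h2

theorem reach_of_L (k m : ℕ) {p a b : V} (hp : p ∈ W.N) (ha : a ∈ W.L p) (hb : b ∈ W.L p)
    (h : W.bi k m a = W.bi k m b) :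
    (W.Bg k m).Reachable a b ∧ ((W.Bg k m).dist a b : ℤ) ≤ |W.u a - W.u b| := by
  rcases le_total (W.u a) (W.u b) with hab | hab
  · exact reach_of_L_le W k m hp ha hb h hab
  · obtain ⟨h1, h2⟩ := reach_of_L_le W k m hp hb ha h.symm hab
    refine ⟨h1.symm, ?_⟩
    rw [SimpleGraph.dist_comm, abs_sub_comm]
    exact h2

theorem exists_mid (k : ℕ) (z : V) : ∃ m < 16, W.mid k m z := by
  unfold LWorld.mid LWorld.pos th
  set P : ℤ := 2 ^ k with hP
  have hPpos : 0 < P := by positivity
  set a := W.u z with ha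
  -- `a = 16 P q + r`, `r = P s + t`
  set r := a % (16 * P) with hr
  have hr0 : 0 ≤ r := Int.emod_nonneg _ (by positivity)
  have hr1 : r < 16 * P := Int.emod_lt_of_pos _ (by positivity)
  set s := r / P with hs
  have hs0 : 0 ≤ s := Int.ediv_nonneg hr0 hPpos.le
  have hs1 : s < 16 := by
    rw [hs, Int.ediv_lt_iff_lt_mul hPpos]
    linarith
  have hst : P * s ≤ r := by rw [hs]; exact Int.mul_ediv_self_le hPpos.ne'
  have hst1 : r < P * s + P := by
    have := Int.lt_mul_ediv_self_add (x := r) hPpos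
    rw [hs]; linarith
  have hdec : a = r + (16 * P) * (a / (16 * P)) := by
    rw [hr]; exact (Int.emod_add_mul_ediv a (16 * P)).symm
  have hval0 : 0 ≤ r + (8 - s) * P := by nlinarith
  have hval1 : r + (8 - s) * P < 16 * P := by nlinarith
  by_cases h8 : s ≤ 8
  · refine ⟨(8 - s).toNat, by omega, ?_⟩
    have hm : (((8 - s).toNat : ℕ) : ℤ) = 8 - s := Int.toNat_of_nonneg (by linarith)
    rw [hm]
    have e : (a + (8 - s) * P) % (16 * P) = r + (8 - s) * P := by
      have : a + (8 - s) * P = (r + (8 - s) * P) + (16 * P) * (a / (16 * P)) := by linarith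
      rw [this, Int.add_mul_emod_self_left]
      exact Int.emod_eq_of_lt hval0 hval1
    rw [e]
    constructor <;> nlinarith
  · refine ⟨(24 - s).toNat, by omega, ?_⟩
    have hm : (((24 - s).toNat : ℕ) : ℤ) = 24 - s := Int.toNat_of_nonneg (by linarith)
    rw [hm]
    have e : (a + (24 - s) * P) % (16 * P) = r + (8 - s) * P := by
      have : a + (24 - s) * P = (r + (8 - s) * P) + (16 * P) * (a / (16 * P) + 1) := by
        linarith
      rw [this, Int.add_mul_emod_self_left]
      exact Int.emod_eq_of_lt hval0 hval1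
    rw [e]
    constructor <;> nlinarith

end Vale.Agent.P235.STO.H742
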