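import Mathlib

/-! P235 (ST): cutting a path into pieces of length `κ ρ / 4`. -/

set_option autoImplicit false

namespace Vale.Agent.P235.ST.H742

open SimpleGraph

variable {V : Type} {G : SimpleGraph V}

/-- the variation of `w` along a walk -/
noncomputable def cost (w : V → ℝ) {p q : V} (g : G.Walk p q) : ℝ :=
  (g.darts.map fun d => |w d.fst - w d.snd|).sum

theorem cost_nil (w : V → ℝ) (p : V) : cost w (Walk.nil : G.Walk p p) = 0 := by
  simp [cost]

theorem cost_cons (w : V → ℝ) {p q r : V} (h : G.Adj p q) (g : G.Walk q r) :
    cost w (Walk.cons h g) = |w p - w q| + cost w g := by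
  simp [cost]

theorem cost_append (w : V → ℝ) {p q r : V} (g : G.Walk p q) (g' : G.Walk q r) :
    cost w (g.append g') = cost w g + cost w g' := by
  simp [cost, Walk.darts_append]

theorem cost_nonneg (w : V → ℝ) {p q : V} (g : G.Walk p q) : 0 ≤ cost w g := by
  induction g with
  | nil => simp [cost_nil]
  | cons h g ih => rw [cost_cons]; positivity

theorem abs_le_cost (w : V → ℝ) {p q : V} (g : G.Walk p q) : |w p - w q| ≤ cost w g := by
  induction g with
  | nil => simp [cost_nil]
  | cons h g ih =>
    rw [cost_cons]
    exact (abs_sub_le _ _ _).trans (by linarith)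

theorem cost_reverse (w : V → ℝ) {p q : V} (g : G.Walk p q) : cost w g.reverse = cost w g := by
  induction g with
  | nil => simp
  | cons h g ih =>
    rw [Walk.reverse_cons, cost_append, ih, cost_cons, cost_cons, cost_nil, abs_sub_comm]
    ring

theorem cost_dropUntil_le [DecidableEq V] (w : V → ℝ) {p q r : V} (g : G.Walk p q)
    (h : r ∈ g.support) : cost w (g.dropUntil r h) ≤ cost w g := by
  have := congrArg (cost w) (g.take_spec h)
  rw [cost_append] at this
  have := cost_nonneg w (g.takeUntil r h)
  linarith

theorem cost_bypass_le [DecidableEq V] (w : V → ℝ) {p q : V} (g : G.Walk p q) :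
    cost w g.bypass ≤ cost w g := by
  induction g with
  | nil => simp [Walk.bypass]
  | cons h g ih =>
    rw [Walk.bypass]
    split_ifs with hs
    · refine (cost_dropUntil_le w _ hs).trans (ih.trans ?_)
      rw [cost_cons]
      exact le_add_of_nonneg_left (abs_nonneg _)
    · rw [cost_cons, cost_cons]
      linarith

/-- the first vertex satisfying `P` -/
theorem exists_first (P : V → Prop) {p q : V} (g : G.Walk p q) :
    (∀ v ∈ g.support, ¬ P v) ∨ ∃ (r : V) (g₁ : G.Walk p r) (g₂ : G.Walk r q),
      g = g₁.append g₂ ∧ P r ∧ (∀ v ∈ g₁.support, P v → v = r) ∧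
      ∀ v ∈ g₁.support.dropLast, ¬ P v := by
  classical
  induction g with
  | nil =>
    rename_i u
    by_cases h : P u
    · exact .inr ⟨u, .nil, .nil, rfl, h, by simp, by simp⟩
    · exact .inl (by simpa using h)
  | cons h g ih =>
    rename_i u v w
    by_cases hu : P u
    · exact .inr ⟨u, .nil, Walk.cons h g, rfl, hu, by simp, by simp⟩
    · rcases ih with ih | ⟨r, g₁, g₂, rfl, hr, h1, h2⟩
      · left
        intro x hx
        rw [Walk.support_cons, List.mem_cons] at hx
        rcases hx with rfl | hx
        · exact hu
        · exact ih x hx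
      · right
        refine ⟨r, Walk.cons h g₁, g₂, rfl, hr, ?_, ?_⟩
        · intro x hx hP
          rw [Walk.support_cons, List.mem_cons] at hx
          rcases hx with rfl | hx
          · exact absurd hP hu
          · exact h1 x hx hP
        · intro x hx
          rw [Walk.support_cons, List.dropLast_cons_of_ne_nil (by simp), List.mem_cons] at hx
          rcases hx with rfl | hx
          · exact hu
          · exact h2 x hx

theorem cut_path (hc : G.Connected) (rho w : V → ℝ) (κ K B0 : ℝ) (hκ : 0 < κ)
    (hρ0 : ∀ x, 0 ≤ rho x) (hρ : ∀ x y, |rho x - rho y| ≤ G.dist x y / κ) (hB : 4 ≤ κ * B0)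
    (hK0 : 0 ≤ K) (hK : 100 * K ≤ κ) (hK1 : K * (B0 + 1 / κ) ≤ 1)
    (edge : ∀ x y, G.Adj x y → rho x ≤ B0 → 1 / 2 ≤ |w x - w y|)
    (piece : ∀ p q (g : G.Walk p q), g.IsPath → B0 < rho p →
      (∀ v ∈ g.support, (G.dist p v : ℝ) ≤ κ * rho p / 4 + 1) → K * rho p ≤ G.dist p q →
      (G.dist p q : ℝ) ≤ 250 * cost w g) :
    ∀ (n : ℕ) p q (g : G.Walk p q), g.length ≤ n → g.IsPath → K * rho p ≤ G.dist p q →
      (G.dist p q : ℝ) ≤ 300 * cost w g := by
  intro n
  induction n with
  | zero =>
    intro p q g hg _ _
    have h0 : g.length = 0 := by omega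
    have hpq : p = q := Walk.eq_of_length_eq_zero h0
    subst hpq
    have := cost_nonneg w g
    simp only [SimpleGraph.dist_self, Nat.cast_zero]
    positivity
  | succ n ih =>
    intro p q g hg hp hKp
    have ih' : ∀ p q (g : G.Walk p q), g.length ≤ n → g.IsPath →
        (G.dist p q : ℝ) - K * rho p ≤ 300 * cost w g := by
      intro p q g hg hp
      have h0 := cost_nonneg w g
      have h1 := mul_nonneg hK0 (hρ0 p)
      by_cases hk : K * rho p ≤ G.dist p q
      · linarith [ih p q g hg hp hk]
      · push Not at hk
        linarith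
    have tri : ∀ a b c : V, (G.dist a c : ℝ) ≤ G.dist a b + G.dist b c := by
      intro a b c
      exact_mod_cast hc.dist_triangle
    by_cases hrho : rho p ≤ B0
    · cases g with
      | nil =>
        simp [cost_nil]
      | cons h g' =>
        rename_i p1
        rw [Walk.length_cons] at hg
        have h1 := ih' p1 q g' (by omega) hp.of_cons
        have h2 := edge p p1 h hrho
        have h3 : (G.dist p p1 : ℝ) = 1 := by
          rw [SimpleGraph.dist_eq_one_iff_adj.2 h]; norm_num
        have h4 := tri p p1 q
        have h5 := (abs_le.1 (hρ p p1)).1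
        rw [h3] at h5 h4
        have h6 : K * rho p1 ≤ K * (B0 + 1 / κ) := mul_le_mul_of_nonneg_left (by linarith) hK0
        rw [cost_cons]
        linarith
    · push Not at hrho
      have hl : 0 < κ * rho p / 4 := by
        have : κ * B0 < κ * rho p := mul_lt_mul_of_pos_left hrho hκ
        linarith
      rcases exists_first (fun v => κ * rho p / 4 ≤ G.dist p v) g with h | ⟨r, g₁, g₂, rfl, hr, h1, h2⟩
      · have := piece p q g hp hrho (fun v hv => by
          have := h v hv
          push Not at this
          linarith) hKp
        have := cost_nonneg w g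
        linarith
      · have hg1 : 0 < g₁.length := by
          rcases Nat.eq_zero_or_pos g₁.length with h0 | h0
          · exfalso
            have := Walk.eq_of_length_eq_zero h0
            subst this
            simp only [SimpleGraph.dist_self, Nat.cast_zero] at hr
            linarith
          · exact h0
        have hsup : ∀ v ∈ g₁.support, (G.dist p v : ℝ) ≤ κ * rho p / 4 + 1 := by
          intro v hv
          by_cases hP : κ * rho p / 4 ≤ G.dist p v
          · have hvr := h1 v hv hP
            subst hvr
            have hnn : ¬ g₁.Nil := by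
              intro hn
              rw [← Walk.length_eq_zero_iff] at hn
              omega
            have hadj := g₁.adj_penultimate hnn
            have hmem : g₁.penultimate ∈ g₁.support.dropLast := by
              exact Walk.penultimate_mem_dropLast_support hnn
            have h3 := h2 _ hmem
            push Not at h3
            have h4 := tri p g₁.penultimate v
            have h5 : (G.dist g₁.penultimate v : ℝ) = 1 := by
              rw [SimpleGraph.dist_eq_one_iff_adj.2 hadj]; norm_num
            linarith
          · push Not at hP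
            linarith
        have hKr : K * rho p ≤ G.dist p r := by
          have := hρ0 p
          nlinarith
        have h3 := piece p r g₁ hp.of_append_left hrho hsup hKr
        rw [Walk.length_append] at hg
        have h4 := ih' r q g₂ (by omega) hp.of_append_right
        have h5 := (abs_le.1 (hρ p r)).1
        have h6 := tri p r q
        have h7 : K * rho r ≤ K * rho p + K * (G.dist p r / κ) := by
          have := mul_le_mul_of_nonneg_left (show rho r ≤ rho p + G.dist p r / κ by linarith) hK0
          linarith
        have h8 : K * (G.dist p r / κ) ≤ G.dist p r / 100 := by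
          rw [← mul_div_assoc, div_le_iff₀ hκ]
          have : (0 : ℝ) ≤ G.dist p r := by positivity
          nlinarith
        have h9 : K * rho p ≤ G.dist p r / 25 := by
          have := hρ0 p
          nlinarith
        rw [cost_append]
        have := cost_nonneg w g₁
        linarith

theorem cut (hc : G.Connected) (rho w : V → ℝ) (κ K B0 : ℝ) (hκ : 0 < κ)
    (hρ0 : ∀ x, 0 ≤ rho x) (hρ : ∀ x y, |rho x - rho y| ≤ G.dist x y / κ) (hB : 4 ≤ κ * B0)
    (hK0 : 0 ≤ K) (hK : 100 * K ≤ κ) (hK1 : K * (B0 + 1 / κ) ≤ 1)
    (edge : ∀ x y, G.Adj x y → rho x ≤ B0 → 1 / 2 ≤ |w x - w y|)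
    (piece : ∀ p q (g : G.Walk p q), g.IsPath → B0 < rho p →
      (∀ v ∈ g.support, (G.dist p v : ℝ) ≤ κ * rho p / 4 + 1) → K * rho p ≤ G.dist p q →
      (G.dist p q : ℝ) ≤ 250 * cost w g) :
    ∀ p q (g : G.Walk p q), K * rho p ≤ G.dist p q → (G.dist p q : ℝ) ≤ 300 * cost w g := by
  classical
  intro p q g h
  have := cut_path hc rho w κ K B0 hκ hρ0 hρ hB hK0 hK hK1 edge piece _ p q g.bypass le_rfl
    g.bypass_isPath h
  have := cost_bypass_le w g
  linarith

end Vale.Agent.P235.ST.H742
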