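import Vale.Agent.P235.ST.H317.Defs

/-! P235, (ST) O(1): rows r10 (costs) and r14 `lb_cut` (cutting a path into pieces), the latter from
the piece lemma as a hypothesis. helper742. -/

namespace Vale.Agent.P235.STO.H742

open SimpleGraph

variable {V : Type}

section costs

variable {G : SimpleGraph V}

theorem cost_nonneg (w : V → ℝ) {x y : V} (g : G.Walk x y) : 0 ≤ cost w g := by
  induction g with
  | nil => simp [cost]
  | cons h g ih => rw [cost]; positivity

theorem cost_append (w : V → ℝ) {x y z : V} (p : G.Walk x y)
    (q : G.Walk y z) : cost w (p.append q) = cost w p + cost w q := by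
  induction p with
  | nil => simp [cost]
  | cons h g ih => rw [Walk.cons_append, cost, cost, ih]; ring

theorem cost_reverse (w : V → ℝ) {x y : V} (p : G.Walk x y) :
    cost w p.reverse = cost w p := by
  induction p with
  | nil => simp
  | cons h g ih =>
    rw [Walk.reverse_cons, cost_append, ih, cost, cost, cost, abs_sub_comm]
    ring

theorem abs_le_cost (w : V → ℝ) {x y : V} (p : G.Walk x y) :
    |w y - w x| ≤ cost w p := by
  induction p with
  | nil => simp [cost]
  | cons h g ih =>
    rename_i a b c
    rw [cost]
    have := abs_sub_le (w c) (w b) (w a)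
    rw [abs_sub_comm (w b) (w a)] at this
    linarith

theorem cost_dropUntil_le [DecidableEq V] (w : V → ℝ) {p q r : V} (g : G.Walk p q)
    (h : r ∈ g.support) : cost w (g.dropUntil r h) ≤ cost w g := by
  have := congrArg (cost w) (g.take_spec h)
  rw [cost_append] at this
  have := cost_nonneg w (g.takeUntil r h)
  linarith

theorem cost_bypass [DecidableEq V] (w : V → ℝ) {x y : V}
    (p : G.Walk x y) : cost w p.bypass ≤ cost w p := by
  induction p with
  | nil => simp [Walk.bypass]
  | cons h g ih =>
    rw [Walk.bypass]
    split_ifs with hs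
    · refine (cost_dropUntil_le w _ hs).trans (ih.trans ?_)
      rw [cost]
      exact le_add_of_nonneg_left (abs_nonneg _)
    · rw [cost, cost]
      linarith

/-- the first vertex satisfying `P` -/
theorem exists_first (P : V → Prop) {p q : V} (g : G.Walk p q) :
    (∀ v ∈ g.support, ¬ P v) ∨ ∃ (r : V) (g₁ : G.Walk p r) (g₂ : G.Walk r q),
      g = g₁.append g₂ ∧ P r ∧ (∀ v ∈ g₁.support, P v → v = r) ∧
      ∀ v ∈ g₁.support.dropLast, ¬ P v := by
  classical
  induction g with
  | nil =>
    rename_i u
    by_cases h : P u
    · exact .inr ⟨u, .nil, .nil, rfl, h, by simp, by simp⟩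
    · exact .inl (by simpa using h)
  | cons h g ih =>
    rename_i u v w
    by_cases hu : P u
    · exact .inr ⟨u, .nil, Walk.cons h g, rfl, hu, by simp, by simp⟩
    · rcases ih with ih | ⟨r, g₁, g₂, rfl, hr, h1, h2⟩
      · left
        intro x hx
        rw [Walk.support_cons, List.mem_cons] at hx
        rcases hx with rfl | hx
        · exact hu
        · exact ih x hx
      · right
        refine ⟨r, Walk.cons h g₁, g₂, rfl, hr, ?_, ?_⟩
        · intro x hx hP
          rw [Walk.support_cons, List.mem_cons] at hx
          rcases hx with rfl | hx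
          · exact absurd hP hu
          · exact h1 x hx hP
        · intro x hx
          rw [Walk.support_cons, List.dropLast_cons_of_ne_nil (by simp), List.mem_cons] at hx
          rcases hx with rfl | hx
          · exact hu
          · exact h2 x hx

end costs

variable (W : LWorld V)

/-- **row r14, `lb_cut`**, from the piece lemma as a hypothesis (constant 300) -/
theorem lb_cut_of_piece {ρ w : V → ℝ} (hρ : W.Scale ρ)
    (piece : ∀ (p q : V) (g : W.G.Walk p q), g.IsPath →
      (∀ z ∈ g.support, W.d p z ≤ kap * ρ p / 4 + 1) → C1 * d1 * ρ p ≤ W.d p q →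
      W.d p q / 240 ≤ cost w g) :
    ∀ (p q : V) (g : W.G.Walk p q), g.IsPath → C1 * d1 * ρ p ≤ W.d p q →
      W.d p q / 300 ≤ cost w g := by
  have tri : ∀ a b c : V, W.d a c ≤ W.d a b + W.d b c := by
    intro a b c
    simp only [LWorld.d]
    exact_mod_cast W.conn.dist_triangle
  have hK0 : (0 : ℝ) ≤ C1 * d1 := by unfold C1 d1; positivity
  have hK : 100 * (C1 * d1) ≤ kap := by unfold C1 d1 kap; norm_num
  have hκ : 0 < kap := by unfold kap; positivity
  suffices H : ∀ (n : ℕ) (p q : V) (g : W.G.Walk p q), g.length ≤ n → g.IsPath →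
      C1 * d1 * ρ p ≤ W.d p q → W.d p q ≤ 300 * cost w g by
    intro p q g hg h
    have := H _ p q g le_rfl hg h
    linarith
  intro n
  induction n with
  | zero =>
    intro p q g hg _ _
    have h0 : g.length = 0 := by omega
    have hpq : p = q := Walk.eq_of_length_eq_zero h0
    subst hpq
    have := cost_nonneg w g
    simp only [LWorld.d, SimpleGraph.dist_self, Nat.cast_zero]
    positivity
  | succ n ih =>
    intro p q g hg hp hKp
    have ih' : ∀ (p q : V) (g : W.G.Walk p q), g.length ≤ n → g.IsPath →
        W.d p q - C1 * d1 * ρ p ≤ 300 * cost w g := by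
      intro p q g hg hp
      have h0 := cost_nonneg w g
      have h1 := mul_nonneg hK0 (hρ.nonneg p)
      by_cases hk : C1 * d1 * ρ p ≤ W.d p q
      · linarith [ih p q g hg hp hk]
      · push Not at hk
        linarith
    have hρp := hρ.nonneg p
    have hl : 0 ≤ kap * ρ p / 4 := by positivity
    rcases exists_first (fun v => kap * ρ p / 4 ≤ W.d p v ∧ 1 ≤ W.d p v) g with
      h | ⟨r, g₁, g₂, rfl, hr, h1, h2⟩
    · have h3 := piece p q g hp (fun v hv => by
        have h4 := h v hv
        rw [not_and_or] at h4
        rcases h4 with h4 | h4 <;> push Not at h4 <;> linarith) hKp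
      have := cost_nonneg w g
      linarith
    · have hpp : W.d p p = 0 := by simp [LWorld.d]
      have hg1 : 0 < g₁.length := by
        rcases Nat.eq_zero_or_pos g₁.length with h0 | h0
        · exfalso
          have := Walk.eq_of_length_eq_zero h0
          subst this
          linarith [hr.2]
        · exact h0
      have hnat : ∀ v, W.d p v < 1 → W.d p v = 0 := by
        intro v hv
        unfold LWorld.d at hv ⊢
        have : W.G.dist p v < 1 := by exact_mod_cast hv
        have : W.G.dist p v = 0 := by omega
        exact_mod_cast this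
      have hsup : ∀ v ∈ g₁.support, W.d p v ≤ kap * ρ p / 4 + 1 := by
        intro v hv
        by_cases hP : kap * ρ p / 4 ≤ W.d p v ∧ 1 ≤ W.d p v
        · have hvr := h1 v hv hP
          subst hvr
          have hnn : ¬ g₁.Nil := by
            intro hn
            rw [← Walk.length_eq_zero_iff] at hn
            omega
          have hadj := g₁.adj_penultimate hnn
          have h3 := h2 _ (Walk.penultimate_mem_dropLast_support hnn)
          have h4 := tri p g₁.penultimate v
          have h5 : W.d g₁.penultimate v = 1 := by
            unfold LWorld.d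
            rw [SimpleGraph.dist_eq_one_iff_adj.2 hadj]; norm_num
          rw [not_and_or] at h3
          rcases h3 with h3 | h3
          · push Not at h3
            linarith
          · push Not at h3
            have := hnat _ h3
            linarith
        · rw [not_and_or] at hP
          rcases hP with hP | hP <;> push Not at hP <;> linarith
      have hdr : (0 : ℝ) ≤ W.d p r := by unfold LWorld.d; positivity
      have hKr : C1 * d1 * ρ p ≤ W.d p r / 25 := by
        have := hr.1
        nlinarith
      have h3 := piece p r g₁ hp.of_append_left hsup (by linarith)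
      rw [Walk.length_append] at hg
      have h4 := ih' r q g₂ (by omega) hp.of_append_right
      have h5 := (abs_le.1 (hρ.lip p r)).1
      have h6 := tri p r q
      have h7 : C1 * d1 * ρ r ≤ C1 * d1 * ρ p + C1 * d1 * (W.d p r / kap) := by
        have := mul_le_mul_of_nonneg_left (show ρ r ≤ ρ p + W.d p r / kap by linarith) hK0
        linarith
      have h8 : C1 * d1 * (W.d p r / kap) ≤ W.d p r / 100 := by
        rw [← mul_div_assoc, div_le_iff₀ hκ]
        nlinarith
      rw [cost_append]
      have := cost_nonneg w g₁
      linarith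

/-- **row r14, `lb_cut`**, official form, from the piece lemma as a hypothesis -/
theorem lb_cut {ρ w : V → ℝ} (hρ : W.Scale ρ)
    (piece : ∀ (p q : V) (g : W.G.Walk p q), g.IsPath →
      (∀ z ∈ g.support, W.d p z ≤ kap * ρ p / 4 + 1) → C1 * d1 * ρ p ≤ W.d p q →
      W.d p q / 240 ≤ cost w g) {p q : V} (g : W.G.Walk p q) (hg : g.IsPath)
    (he : C1 * d1 * ρ p ≤ W.d p q) : W.d p q / 960 ≤ cost w g := by
  have := lb_cut_of_piece W hρ piece p q g hg he
  have h0 : 0 ≤ W.d p q := by unfold LWorld.d; positivity
  linarith

/-- **row r14, `inv_step`**, from the piece lemma and `nxt_le` as hypotheses -/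
theorem inv_step {ρ ρ' w v : V → ℝ} (hρ : W.Scale ρ) (hw : W.Inv ρ' w)
    (nxt_le : ∀ x, ρ' x ≤ 16 * d1 * ρ x)
    (piece : ∀ (p q : V) (g : W.G.Walk p q), g.IsPath →
      (∀ z ∈ g.support, W.d p z ≤ kap * ρ p / 4 + 1) → C1 * d1 * ρ p ≤ W.d p q →
      W.d p q / 240 ≤ cost w g)
    (h1 : ∀ x y, W.G.Adj x y → |v x - v y| ≤ e1 * |w x - w y|)
    (h2 : ∀ x, |v x| ≤ e1 * ρ x) : W.Inv ρ (fun x => w x + v x) := by
  have he1 : 0 < e1 := by unfold e1; positivity
  have he1' : e1 ≤ 1 / 1000 := by unfold e1; norm_num
  have hedge : ∀ x y, W.G.Adj x y →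
      (1 - e1) * |w x - w y| ≤ |(w x + v x) - (w y + v y)| := by
    intro x y hxy
    have h3 := h1 x y hxy
    have h4 : |w x - w y| ≤ |(w x + v x) - (w y + v y)| + |v x - v y| := by
      have := abs_add_le ((w x + v x) - (w y + v y)) (-(v x - v y))
      rw [abs_neg] at this
      have e : (w x + v x) - (w y + v y) + -(v x - v y) = w x - w y := by ring
      rwa [e] at this
    linarith
  have hcost : ∀ {p q : V} (g : W.G.Walk p q),
      (1 - e1) * cost w g ≤ cost (fun x => w x + v x) g := by
    intro p q g
    induction g with
    | nil => simp [cost]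
    | cons h g ih =>
      rw [cost, cost, mul_add]
      have := hedge _ _ h
      linarith
  refine ⟨?_, ?_, ?_⟩
  · intro x y hxy
    have h3 := h1 x y hxy
    have h4 := hw.sign x y hxy
    have h5 : e1 * |w x - w y| < |w x - w y| := by
      have : 0 < |w x - w y| := by
        rw [abs_pos]
        intro h0
        rw [h0, zero_mul] at h4
        exact lt_irrefl _ h4
      nlinarith
    have h6 : |v x - v y| < |w x - w y| := lt_of_le_of_lt h3 h5
    rcases lt_or_ge 0 (w x - w y) with h7 | h7
    · rw [abs_of_pos h7] at h6
      have h8 : 0 < (W.u x : ℝ) - W.u y := by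
        by_contra hc
        push Not at hc
        have := mul_nonpos_of_nonneg_of_nonpos h7.le hc
        linarith
      have h9 := (abs_lt.1 h6).1
      exact mul_pos (by linarith) h8
    · rw [abs_of_nonpos h7] at h6
      have h8 : (W.u x : ℝ) - W.u y < 0 := by
        by_contra hc
        push Not at hc
        have := mul_nonpos_of_nonpos_of_nonneg h7 hc
        linarith
      have h9 := (abs_lt.1 h6).2
      exact mul_pos_of_neg_of_neg (by linarith) h8
  · intro x
    have h3 := hw.close x
    have h4 := h2 x
    have h5 := nxt_le x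
    have h6 := hρ.nonneg x
    have h7 : 16 * d1 * ρ x ≤ ρ x / 2 := by
      have : 16 * d1 ≤ 1 / 2 := by unfold d1; norm_num
      nlinarith
    have h8 : 2 * e1 * ρ' x ≤ e1 * ρ x := by nlinarith
    have h9 := abs_add_le (w x - W.u x) (v x)
    have e : w x - W.u x + v x = (w x + v x) - W.u x := by ring
    rw [e] at h9
    linarith
  · intro p q g hg
    classical
    have h3 := lb_cut W hρ piece g.bypass g.bypass_isPath hg
    have h4 := cost_bypass w g
    have h5 := hcost g
    have h6 := cost_nonneg w g
    have h0 : 0 ≤ W.d p q := by unfold LWorld.d; positivity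
    have h7 : (1 - 1 / 1000) * cost w g ≤ (1 - e1) * cost w g :=
      mul_le_mul_of_nonneg_right (by linarith) h6
    unfold c2
    linarith

end Vale.Agent.P235.STO.H742
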