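/-
P235-ST (helper742).  Klein-Plotkin-Rao partitions of all components of `G - X`.
-/
import Vale.Agent.P235.R2.H582.KprSpec
import Vale.Agent.P235.H105.Peel

set_option linter.all false
set_option autoImplicit false

namespace Vale.Agent.P235.ST.H742

open SimpleGraph Vale.Agent.P235 Finset

theorem compSet_eq' {V : Type} {G : SimpleGraph V} {X : Set V} {u v : V} (h : ReachOff G X u v) :
    compSet G X v = compSet G X u := by
  ext z
  exact ⟨fun hz => h.trans hz, fun hz => h.symm.trans hz⟩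

theorem cuts_of (hkpr : Kpr.RowKPR) {V : Type} [Finite V] {G : SimpleGraph V} {ℓ : Sym2 V → ℝ} (hc : G.Connected)
    (hℓ : ∀ e ∈ G.edgeSet, 0 < ℓ e) {X : Set V}
    (hcomp : ∀ u ∉ X, (compSet G X u).Subsingleton ∨
      ∃ σ : Equiv.Perm (G.induce (compSet G X u)).Dart,
        PlaneMap (G.induce (compSet G X u)) σ) {Δ ε : ℝ} (hΔ : 0 < Δ) (hε : 0 < ε) :
    ∃ (Ω : Type) (_ : Fintype Ω) (_ : Nonempty Ω) (c : Ω → V → V),
      (∀ ω u v, u ∉ X → v ∉ X → ReachOff G X u v → c ω u = c ω v → pathDist G ℓ u v ≤ Δ) ∧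
      ∀ u v, u ∉ X → v ∉ X → G.Adj u v →
        (({ω | c ω u ≠ c ω v}.ncard : ℕ) : ℝ) ≤ (156 * ℓ s(u, v) / Δ + ε) * Fintype.card Ω := by
  classical
  obtain ⟨N, hN⟩ := exists_nat_gt (3 / ε)
  have hNr : (0 : ℝ) < N := lt_trans (by positivity) hN
  have hN0 : 0 < N := by exact_mod_cast hNr
  have hNε : 3 / (N : ℝ) ≤ ε := by
    rw [div_le_iff₀ hNr]
    rw [div_lt_iff₀ hε] at hN
    linarith
  have hK : ∀ K : Set V, ∃ c : Fin N × Fin N × Fin N → V → V, (∃ u, u ∉ X ∧ K = compSet G X u) →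
      (∀ ω, ∀ u ∈ K, ∀ v ∈ K, c ω u = c ω v → pathDist G ℓ u v ≤ Δ) ∧
      ∀ u ∈ K, ∀ v ∈ K, G.Adj u v → ({ω | c ω u ≠ c ω v}.ncard : ℝ) ≤
        3 * (N : ℝ) ^ 3 * (ℓ s(u, v) / (Δ / 52) + 1 / N) := by
    intro K
    by_cases h : ∃ u, u ∉ X ∧ K = compSet G X u
    · obtain ⟨u0, hu0, rfl⟩ := h
      have hpos := induce_pos hℓ (compSet G X u0)
      rcases hcomp u0 hu0 with hsub | hpl
      · refine ⟨fun _ v => v, fun _ => ⟨fun ω u hu v hv he => ?_, fun u hu v hv huv => ?_⟩⟩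
        · rw [hsub hu hv, (pathDist_isMet hc hℓ).self]
          exact hΔ.le
        · exact absurd (hsub hu hv) huv.ne
      obtain ⟨c0, h1, h2⟩ := hkpr _ (G.induce (compSet G X u0))
        (fun e => ℓ (e.map Subtype.val)) (comp_connected hu0) hpl hpos (Δ / 52) N
        (by positivity) hN0
      let c : Fin N × Fin N × Fin N → V → V := fun ω v =>
        if h : v ∈ compSet G X u0 then (c0 ω ⟨v, h⟩).1 else v
      have hcv : ∀ ω v (h : v ∈ compSet G X u0), c ω v = (c0 ω ⟨v, h⟩).1 := fun ω v h => dif_pos h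
      refine ⟨c, fun _ => ⟨fun ω u hu v hv he => ?_, fun u hu v hv huv => ?_⟩⟩
      · rw [hcv ω u hu, hcv ω v hv] at he
        have h3 := h1 ω ⟨u, hu⟩ ⟨v, hv⟩ (Subtype.ext he)
        have h4 : 52 * (Δ / 52) = Δ := by ring
        rw [h4] at h3
        refine le_trans ?_ h3
        have hcc := comp_connected (G := G) hu0
        have hd := pathDist_isMet hc hℓ
        have h5 := pathDist_semi (ℓ := fun e => ℓ (e.map Subtype.val))
          (ρ := fun x y : compSet G X u0 => pathDist G ℓ x.1 y.1) (K := 1) hcc one_pos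
          (fun x => hd.self _) (fun x y z => hd.tri _ _ _)
          (fun a b hab => by
            rw [one_mul]
            exact pathDist_adj hℓ hab) ⟨u, hu⟩ ⟨v, hv⟩
        rwa [one_mul] at h5
      · have h3 := h2 ⟨u, hu⟩ ⟨v, hv⟩ huv
        have h4 : {ω | c ω u ≠ c ω v} = {ω | c0 ω ⟨u, hu⟩ ≠ c0 ω ⟨v, hv⟩} := by
          ext ω
          show c ω u ≠ c ω v ↔ c0 ω ⟨u, hu⟩ ≠ c0 ω ⟨v, hv⟩
          rw [hcv ω u hu, hcv ω v hv, Ne, Ne, Subtype.ext_iff]
        rw [h4]
        exact h3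
    · exact ⟨fun _ v => v, fun h' => absurd h' h⟩
  choose c hc' using hK
  have : Nonempty (Fin N) := ⟨⟨0, hN0⟩⟩
  refine ⟨Fin N × Fin N × Fin N, inferInstance, inferInstance,
    fun ω v => c (compSet G X v) ω v, ?_, ?_⟩
  · intro ω u v hu hv huv he
    have he' : c (compSet G X u) ω u = c (compSet G X v) ω v := he
    rw [compSet_eq' huv] at he'
    exact (hc' _ ⟨u, hu, rfl⟩).1 ω u (ReachOff.refl hu) v huv he'
  · intro u v hu hv huv
    have hr : ReachOff G X u v := ReachOff.adj hu hv huv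
    have h1 := (hc' _ ⟨u, hu, rfl⟩).2 u (ReachOff.refl hu) v hr huv
    have h2 : {ω | (fun ω v => c (compSet G X v) ω v) ω u ≠
        (fun ω v => c (compSet G X v) ω v) ω v} =
        {ω | c (compSet G X u) ω u ≠ c (compSet G X u) ω v} := by
      ext ω
      show c (compSet G X u) ω u ≠ c (compSet G X v) ω v ↔ _
      rw [compSet_eq' hr]
      rfl
    rw [h2]
    refine h1.trans ?_
    have hcard : ((Fintype.card (Fin N × Fin N × Fin N) : ℕ) : ℝ) = (N : ℝ) ^ 3 := by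
      simp only [Fintype.card_prod, Fintype.card_fin]
      push_cast
      ring
    rw [hcard]
    have h3 : 3 * (N : ℝ) ^ 3 * (ℓ s(u, v) / (Δ / 52) + 1 / N) =
        (156 * ℓ s(u, v) / Δ + 3 / N) * (N : ℝ) ^ 3 := by
      field_simp
      ring
    rw [h3]
    exact mul_le_mul_of_nonneg_right (by linarith) (by positivity)

end Vale.Agent.P235.ST.H742
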