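import Vale.Agent.P235.ST.H119.Clock
import Vale.Agent.P235.ST.H611.Cost
import Vale.Agent.P235.ST.H317.Defs2
import Vale.Agent.P235.ST.H742.CutW

/-! P235, (ST) O(1): row r11 `stretch`, with the plan rows as hypotheses. helper742. -/

namespace Vale.Agent.P235.STO.H742

open SimpleGraph

variable {V : Type} (W : LWorld V)

/-- a vertex at a small height difference is in the same band -/
theorem pos_shift (k m : ℕ) (x y : V) (h0 : 0 ≤ W.pos k m x + (W.u y - W.u x))
    (h1 : W.pos k m x + (W.u y - W.u x) < th k) :
    W.pos k m y = W.pos k m x + (W.u y - W.u x) ∧ W.bi k m y = W.bi k m x := by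
  have hpos : 0 < th k := by unfold th; positivity
  have hx : W.u x + m * 2 ^ k = W.pos k m x + th k * W.bi k m x := by
    unfold LWorld.pos LWorld.bi
    exact (Int.emod_add_mul_ediv _ _).symm
  have hy : W.u y + m * 2 ^ k = (W.pos k m x + (W.u y - W.u x)) + th k * W.bi k m x := by
    linarith
  constructor
  · conv_lhs => unfold LWorld.pos
    rw [hy, Int.add_mul_emod_self_left]
    exact Int.emod_eq_of_lt h0 h1
  · conv_lhs => unfold LWorld.bi
    rw [hy, Int.add_mul_ediv_left _ _ hpos.ne', Int.ediv_eq_zero_of_lt h0 h1, zero_add]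

theorem tri (a b c : V) : W.d a c ≤ W.d a b + W.d b c := by
  simp only [LWorld.d]
  exact_mod_cast W.conn.dist_triangle

theorem d_symm (a b : V) : W.d a b = W.d b a := by
  simp only [LWorld.d, SimpleGraph.dist_comm]

theorem abs_u_le_d (a b : V) : |(W.u a : ℝ) - W.u b| ≤ W.d a b := by
  obtain ⟨q, hq⟩ := W.conn.exists_walk_length_eq_dist a b
  have := H119.abs_u_le W q
  rw [hq] at this
  simp only [LWorld.d]
  exact_mod_cast this

/-- a ball inside the band is in the component of its centre -/
theorem reach_ball (k m : ℕ) {x y : V} {r : ℝ} (hd : W.d x y ≤ r)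
    (h0 : r ≤ W.pos k m x) (h1 : (W.pos k m x : ℝ) + r < th k) :
    (W.Bg k m).Reachable x y ∧ ((W.Bg k m).dist x y : ℝ) ≤ W.d x y := by
  classical
  obtain ⟨q, hq⟩ := W.conn.exists_walk_length_eq_dist x y
  have hbi : ∀ z ∈ q.support, W.bi k m z = W.bi k m x := by
    intro z hz
    have h2 := H119.abs_u_le W (q.takeUntil z hz)
    have h3 : (q.takeUntil z hz).length ≤ q.length := q.length_takeUntil_le_length hz
    have h4 : |(W.u x : ℝ) - W.u z| ≤ r := by
      have h5 : |(W.u x : ℝ) - W.u z| ≤ ((q.takeUntil z hz).length : ℝ) := by exact_mod_cast h2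
      have h6 : ((q.takeUntil z hz).length : ℝ) ≤ W.d x y := by
        simp only [LWorld.d]
        rw [← hq]
        exact_mod_cast h3
      linarith
    have h5 := abs_le.1 h4
    refine (pos_shift W k m x z ?_ ?_).2
    · have : (0 : ℝ) ≤ (W.pos k m x : ℝ) + ((W.u z : ℝ) - W.u x) := by linarith
      exact_mod_cast this
    · have : (W.pos k m x : ℝ) + ((W.u z : ℝ) - W.u x) < (th k : ℝ) := by linarith
      exact_mod_cast this
  obtain ⟨h2, h3⟩ := H119.reach_of_walk W k m q hbi
  refine ⟨h2, ?_⟩
  simp only [LWorld.d]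
  rw [← hq]
  exact_mod_cast h3

/-- two vertices of a line -/
theorem d_line {p a b : V} (hp : p ∈ W.N) (ha : a ∈ W.L p) (hb : b ∈ W.L p) :
    W.d a b ≤ |(W.u a : ℝ) - W.u b| := by
  rcases le_total (W.u a) (W.u b) with h | h
  · obtain ⟨q, hq, -⟩ := W.L_path p hp a ha b hb h
    have h1 : W.d a b ≤ q.length := by
      simp only [LWorld.d]
      exact_mod_cast SimpleGraph.dist_le q
    have h2 : (q.length : ℝ) = (W.u b : ℝ) - W.u a := by exact_mod_cast hq
    rw [abs_sub_comm]
    exact h1.trans (h2 ▸ le_abs_self _)
  · obtain ⟨q, hq, -⟩ := W.L_path p hp b hb a ha h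
    have h1 : W.d b a ≤ q.length := by
      simp only [LWorld.d]
      exact_mod_cast SimpleGraph.dist_le q
    have h2 : (q.length : ℝ) = (W.u a : ℝ) - W.u b := by exact_mod_cast hq
    rw [d_symm]
    exact h1.trans (h2 ▸ le_abs_self _)

/-- **row r11 `stretch`**, from the plan rows as hypotheses -/
theorem stretch_of [Finite V] {ρ ρ' w : V → ℝ} (hρ : W.Scale ρ) (hρ' : W.Scale ρ')
    (hw : W.Inv ρ' w)
    (hun : ∀ z y, W.uns ρ z y → W.d z y ≤ 16 * d1 * ρ z)
    (hatt : ∀ x, 0 < ρ' x → ∃ z y, W.uns ρ z y ∧ ρ' x = W.d z y - W.d x z / kap)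
    {p a b : V} {k m : ℕ}
    (g : W.G.Walk a b) (hg : g.IsPath) (hr : W.Reg ρ p k m g) (ha : a ∈ W.N) (hb : b ∈ W.N)
    (hne : a ≠ b) :
    (W.D k m b : ℝ) ≤ W.D k m a + (5 / 4) * cost w g + 64 * d1 * ρ p ∨
    ∃ (c : V) (g1 : W.G.Walk a c) (g2 : W.G.Walk c b), g = g1.append g2 ∧ 0 < g1.length ∧
      c ∈ W.N ∧ (W.D k m c : ℝ) ≤ W.D k m a + (5 / 4) * cost w g1 := by
  classical
  -- the first step of `g`
  obtain ⟨v, hav, g', rfl⟩ : ∃ (v : V) (h : W.G.Adj a v) (g' : W.G.Walk v b),
      g = Walk.cons h g' := by
    cases g with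
    | nil => exact absurd rfl hne
    | cons h g' => exact ⟨_, h, g', rfl⟩
  have hsub : ∀ {c : V} (g1' : W.G.Walk v c) (g2 : W.G.Walk c b), g' = g1'.append g2 →
      ∀ z ∈ (Walk.cons hav g1').support, z ∈ (Walk.cons hav g').support := by
    intro c g1' g2 he z hz
    rw [Walk.support_cons, List.mem_cons] at hz ⊢
    rcases hz with hz | hz
    · exact .inl hz
    · right
      rw [he, Walk.mem_support_append_iff]
      exact .inl hz
  by_cases hcase : ρ' a ≤ 4 / kap
  · -- hop to the next lined vertex
    right
    rcases exists_first (· ∈ W.N) g' with h | ⟨c, g1', g2, he, hc, h1, -⟩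
    · exact absurd hb (h b g'.end_mem_support)
    · refine ⟨c, Walk.cons hav g1', g2, by rw [he, Walk.cons_append], by simp, hc, ?_⟩
      have hpath : (Walk.cons hav g1').IsPath := by
        have : Walk.cons hav g' = (Walk.cons hav g1').append g2 := by rw [he, Walk.cons_append]
        rw [this] at hg
        exact hg.of_append_left
      have h2 := H611.hop_cost W hρ' hw (Walk.cons hav g1') hpath (by
        intro z hz hza hzc hzN
        rw [Walk.support_cons, List.mem_cons] at hz
        rcases hz with hz | hz
        · exact hza hz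
        · exact hzc (h1 z hz hzN)) hcase
      obtain ⟨h3, h4⟩ := H119.reach_of_walk W k m (Walk.cons hav g1')
        (fun z hz => hr.same z (hsub g1' g2 he z hz))
      have h5 := H119.D_lip W k m h3
      have h6 : (W.D k m c : ℝ) ≤ W.D k m a + (Walk.cons hav g1').length := by
        have : (W.D k m c : ℤ) ≤ W.D k m a + ((Walk.cons hav g1').length : ℤ) := by
          have : (((W.Bg k m).dist a c : ℕ) : ℤ) ≤ ((Walk.cons hav g1').length : ℤ) := by
            exact_mod_cast h4
          linarith
        exact_mod_cast this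
      linarith
  · -- an unserved pair
    push Not at hcase
    have hκ : (0 : ℝ) < kap := by unfold kap; positivity
    have hρ'a : 0 < ρ' a := lt_trans (by positivity) hcase
    obtain ⟨z, y, hzy, hatt⟩ := hatt a hρ'a
    have ht16 := hun z y hzy
    obtain ⟨hzN, hyN, hzu, hidx, hr0, h2t, hserv⟩ := hzy
    set t := W.d z y with ht
    have hd1 : (0 : ℝ) < d1 := by unfold d1; positivity
    have hd1' : d1 ≤ 1 / 2 ^ 100 := by unfold d1; norm_num
    have hκ' : kap = 1 / 2 ^ 22 := rfl
    have hr0' : (2 : ℝ) ^ 90 ≤ t := by unfold r0 at hr0; exact hr0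
    have htpos : 0 < t := lt_of_lt_of_le (by positivity) hr0'
    have haz : W.d a z = kap * (t - ρ' a) := by
      rw [hatt]; field_simp; ring
    have hazt : W.d a z ≤ kap * t := by
      rw [haz]; nlinarith
    have hρ't : ρ' a ≤ t := by
      have : 0 ≤ W.d a z / kap := div_nonneg (by simp only [LWorld.d]; positivity) hκ.le
      linarith
    -- comparison of `ρ z` and `ρ p`
    have hbig := hr.big
    have hlo := hr.lo
    have hhi := hr.hi
    have hpa := hr.ball a (by simp)
    have hρp := hρ.nonneg p
    have hpz : W.d p z ≤ kap * ρ p / 4 + 1 + kap * t := by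
      have := tri W p a z
      linarith
    have hzp := abs_le.1 (hρ.lip p z)
    have hdivk : W.d p z / kap ≤ ρ p / 4 + 2 ^ 22 + t := by
      rw [div_le_iff₀ hκ, hκ']
      rw [hκ'] at hpz
      linarith
    have hρz1 : ρ z ≤ (5 / 4) * ρ p + 2 ^ 22 + t := by linarith [hzp.1]
    have hρz2 : (3 / 4) * ρ p - 2 ^ 22 - t ≤ ρ z := by linarith [hzp.2]
    have h16d : 16 * d1 * ρ z ≤ ρ z / 2 ^ 90 := by
      have h16 : 16 * d1 ≤ 1 / 2 ^ 90 := by unfold d1; norm_num
      have := mul_le_mul_of_nonneg_right h16 (hρ.nonneg z)
      linarith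
    have h22 : (2 : ℝ) ^ 22 ≤ ρ p / 2 ^ 78 := by
      rw [le_div_iff₀ (by positivity)]
      calc (2 : ℝ) ^ 22 * 2 ^ 78 = 2 ^ 100 := by norm_num
        _ ≤ ρ p := hbig
    have hρz3 : ρ z ≤ (13 / 10) * ρ p := by linarith
    have htρ : t ≤ 21 * d1 * ρ p := by
      have : 16 * d1 * ρ z ≤ 16 * d1 * ((13 / 10) * ρ p) :=
        mul_le_mul_of_nonneg_left hρz3 (by positivity)
      nlinarith
    have hd1ρ : 0 ≤ d1 * ρ p := by positivity
    have htρ' : t ≤ ρ p / 100 := by
      have : 16 * d1 * ρ z ≤ ρ z / 2 ^ 90 := h16d
      linarith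
    have hρz4 : (2 / 3) * ρ p ≤ ρ z := by linarith
    -- the height unit
    have hth : (th k : ℝ) = 16 * 2 ^ k := by unfold th; push_cast; ring
    set P : ℝ := 2 ^ k with hP
    have hPpos : 0 < P := by positivity
    have htP : t ≤ (16 / 3) * P := by
      rw [hth] at hlo
      linarith
    have hin : inList (ρ z) k := by
      constructor
      · have : d1 * ρ z ≤ d1 * ((13 / 10) * ρ p) := mul_le_mul_of_nonneg_left hρz3 hd1.le
        linarith
      · have hdl : 0 < dl := by unfold dl; positivity
        have : dl * ((2 / 3) * ρ p) ≤ dl * ρ z := mul_le_mul_of_nonneg_left hρz4 hdl.le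
        linarith
    have hns := hserv k m hr.m16 hin
    -- positions
    obtain ⟨hba, hba'⟩ := hr.band a (by simp)
    have hba1 : 6 * P ≤ (W.pos k m a : ℝ) := by rw [hP]; exact_mod_cast hba
    have hba2 : (W.pos k m a : ℝ) ≤ 9 * P := by rw [hP]; exact_mod_cast hba'
    have hkt : kap * t ≤ P / 1000 := by
      rw [hκ']; linarith
    have hkt0 : 0 ≤ kap * t := by positivity
    -- `a` and `z`
    obtain ⟨hraz, hraz'⟩ := reach_ball W k m hazt (by linarith) (by rw [hth]; linarith)
    have huaz : |(W.u a : ℝ) - W.u z| ≤ kap * t := (abs_u_le_d W a z).trans hazt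
    have huaz' := abs_le.1 huaz
    obtain ⟨hpz1, -⟩ := pos_shift W k m a z
      (by
        have : (0 : ℝ) ≤ (W.pos k m a : ℝ) + ((W.u z : ℝ) - W.u a) := by linarith
        exact_mod_cast this)
      (by
        have : (W.pos k m a : ℝ) + ((W.u z : ℝ) - W.u a) < (th k : ℝ) := by
          rw [hth]; linarith
        exact_mod_cast this)
    have hpz2 : (W.pos k m z : ℝ) = (W.pos k m a : ℝ) + ((W.u z : ℝ) - W.u a) := by
      rw [hpz1]; push_cast; ring
    have hzlo : (599 / 100) * P ≤ (W.pos k m z : ℝ) := by rw [hpz2]; linarith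
    have hzhi : (W.pos k m z : ℝ) ≤ (901 / 100) * P := by rw [hpz2]; linarith
    -- `z` and `y`
    obtain ⟨hrzy, hrzy'⟩ := reach_ball W k m (le_refl t) (by linarith) (by rw [hth]; linarith)
    have hmid : W.mid k m z := by
      unfold LWorld.mid
      constructor
      · have : (4 * 2 ^ k : ℝ) ≤ W.pos k m z := by linarith
        exact_mod_cast this
      · have : (W.pos k m z : ℝ) ≤ 12 * 2 ^ k := by linarith
        exact_mod_cast this
    have hDyz : (W.D k m y : ℝ) - W.D k m z < cp * t := by
      by_contra hcon
      push Not at hcon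
      exact hns ⟨hmid, .inr hcon⟩
    have hDza : (W.D k m z : ℝ) ≤ W.D k m a + kap * t := by
      have h1 := H119.D_lip W k m hraz
      have h2 : (W.D k m z : ℝ) ≤ W.D k m a + ((W.Bg k m).dist a z : ℝ) := by exact_mod_cast h1
      linarith
    -- `a` is not on the line of `y`
    have hyL := W.mem_L y hyN
    have hfar : ∀ x ∈ W.L y, W.d z x ≤ kap * t → False := by
      intro x hx hdx
      have h1 := d_line W hyN hx hyL
      have h2 := (abs_u_le_d W z x).trans hdx
      have h3 : |(W.u x : ℝ) - W.u y| ≤ kap * t := by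
        rw [← hzu, abs_sub_comm]; exact h2
      have h4 := tri W z x y
      have : t ≤ 2 * (kap * t) := by linarith
      rw [hκ'] at this
      linarith
    have haL : a ∉ W.L y := by
      intro haL
      exact hfar a haL (by rw [d_symm]; exact hazt)
    have hidxa : W.idx a ≤ W.idx y := by
      by_contra hcon
      push Not at hcon
      obtain ⟨q, hq⟩ := W.conn.exists_walk_length_eq_dist z a
      obtain ⟨x, hx, hxL⟩ := W.sep y hyN z hzN a ha hidx hcon.le q
      refine hfar x hxL ?_
      have h1 : W.d z x ≤ ((q.takeUntil x hx).length : ℝ) := by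
        simp only [LWorld.d]
        exact_mod_cast SimpleGraph.dist_le _
      have h2 : ((q.takeUntil x hx).length : ℝ) ≤ q.length := by
        exact_mod_cast q.length_takeUntil_le_length hx
      have h3 : (q.length : ℝ) = W.d a z := by
        simp only [LWorld.d]
        rw [hq, SimpleGraph.dist_comm]
      linarith
    have hre : ∀ c ∈ (Walk.cons hav g').support, (W.Bg k m).Reachable a c := by
      intro c hc
      refine (H119.reach_of_walk W k m ((Walk.cons hav g').takeUntil c hc) fun x hx => ?_).1
      exact hr.same x ((Walk.cons hav g').support_takeUntil_subset_support hc hx)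
    -- the bound for the end of a stretch
    have hend : ∀ c ∈ (Walk.cons hav g').support, c ∈ W.N → W.idx c ≤ W.idx y →
        (W.D k m c : ℝ) ≤ W.D k m a + (kap + cp) * t + |(W.u c : ℝ) - W.u z| := by
      intro c hc hcN hic
      have h1 : (W.Bg k m).Reachable c y := (hre c hc).symm.trans (hraz.trans hrzy)
      have h2 := H119.D_M W k m hcN hyN h1 hic
      have h3 : (W.D k m c : ℝ) ≤ W.D k m y + |(W.u c : ℝ) - W.u y| := by exact_mod_cast h2
      rw [hzu]
      linarith
    have hcp : cp = 1 / 2 ^ 21 := rfl
    have hbb : bb = 1 / 2 ^ 14 := rfl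
    rcases exists_first (fun x => x ∈ W.L y ∨ bb * t ≤ |(W.u x : ℝ) - W.u z|) g' with
      h | ⟨r, g1', g2, he, hr1, h1, -⟩
    · -- the end
      left
      have hib : W.idx b ≤ W.idx y := by
        by_contra hcon
        push Not at hcon
        obtain ⟨x, hx, hxL⟩ := W.sep y hyN a ha b hb hidxa hcon.le (Walk.cons hav g')
        rw [Walk.support_cons, List.mem_cons] at hx
        rcases hx with rfl | hx
        · exact haL hxL
        · exact h x hx (.inl hxL)
      have h2 := hend b (Walk.end_mem_support _) hb hib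
      have h3 := h b g'.end_mem_support
      push Not at h3
      have h4 := h3.2
      have h5 := cost_nonneg w (Walk.cons hav g')
      rw [hκ', hcp] at h2
      rw [hbb] at h4
      linarith
    · right
      -- the deviation case
      have hdev : ∀ (c : V) (g1 : W.G.Walk a c) (x : V) (hx : x ∈ g1.support),
          bb * t ≤ |(W.u x : ℝ) - W.u z| →
          (kap + cp) * t + |(W.u c : ℝ) - W.u z| ≤ (5 / 4) * cost w g1 := by
        intro c g1 x hx hdx
        have c1 := H611.vert W hρ' hw (g1.takeUntil x hx)
        have c2 := H611.vert W hρ' hw g1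
        have c3 : cost w (g1.takeUntil x hx) ≤ cost w g1 := by
          have := congrArg (cost w) (g1.take_spec hx)
          rw [cost_append] at this
          have := cost_nonneg w (g1.dropUntil x hx)
          linarith
        have he1 : 8 * e1 * ρ' a ≤ t / 2 ^ 100 := by
          have h8 : 8 * e1 ≤ 1 / 2 ^ 100 := by unfold e1; norm_num
          have := mul_le_mul h8 hρ't hρ'a.le (by positivity)
          linarith
        have c4 : |(W.u x : ℝ) - W.u z| ≤ |(W.u x : ℝ) - W.u a| + kap * t :=
          (abs_sub_le _ (W.u a : ℝ) _).trans (by linarith)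
        have c5 : |(W.u c : ℝ) - W.u z| ≤ |(W.u c : ℝ) - W.u a| + kap * t :=
          (abs_sub_le _ (W.u a : ℝ) _).trans (by linarith)
        rw [hbb] at hdx
        rw [hκ', hcp]
        rw [hκ'] at c4 c5
        rcases le_total (|(W.u c : ℝ) - W.u z|) (|(W.u x : ℝ) - W.u z|) with h | h <;> linarith
      by_cases hd : bb * t ≤ |(W.u r : ℝ) - W.u z|
      · -- deviation at `r`; go on to the next lined vertex
        rcases exists_first (· ∈ W.N) g2 with h2 | ⟨c, g3, g4, he2, hcN, h3, -⟩
        · exact absurd hb (h2 b g2.end_mem_support)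
        · have he' : g' = (g1'.append g3).append g4 := by
            rw [he, he2, Walk.append_assoc]
          refine ⟨c, Walk.cons hav (g1'.append g3), g4, by rw [he', Walk.cons_append], by simp,
            hcN, ?_⟩
          have hcs : c ∈ (Walk.cons hav g').support :=
            hsub _ _ he' c (Walk.end_mem_support _)
          have hic : W.idx c ≤ W.idx y := by
            by_contra hcon
            push Not at hcon
            obtain ⟨x, hx, hxL⟩ := W.sep y hyN a ha c hcN hidxa hcon.le
              (Walk.cons hav (g1'.append g3))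
            rw [Walk.support_cons, List.mem_cons, Walk.mem_support_append_iff] at hx
            have hcx : x = c → False := by
              rintro rfl
              exact absurd (W.L_sub y hyN x hxL).2 (not_le.2 hcon)
            rcases hx with rfl | hx | hx
            · exact haL hxL
            · have hxr := h1 x hx (.inl hxL)
              subst hxr
              exact hcx (h3 x g3.start_mem_support (W.L_sub y hyN x hxL).1)
            · exact hcx (h3 x hx (W.L_sub y hyN x hxL).1)
          have h4 := hend c hcs hcN hic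
          have h5 := hdev c (Walk.cons hav (g1'.append g3)) r (by
            rw [Walk.support_cons, List.mem_cons, Walk.mem_support_append_iff]
            exact .inr (.inl g1'.end_mem_support)) hd
          linarith
      · -- `r` on the line of `y`
        have hrL : r ∈ W.L y := hr1.resolve_right hd
        push Not at hd
        obtain ⟨hrN, hri⟩ := W.L_sub y hyN r hrL
        refine ⟨r, Walk.cons hav g1', g2, by rw [he, Walk.cons_append], by simp, hrN, ?_⟩
        have hrs : r ∈ (Walk.cons hav g').support := hsub _ _ he r (Walk.end_mem_support _)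
        have h4 := hend r hrs hrN hri
        have h5 := d_line W hyN hrL hyL
        have h6 : |(W.u r : ℝ) - W.u y| < bb * t := by rw [← hzu]; exact hd
        have h7 := tri W z a y
        have h8 := tri W a r y
        rw [d_symm W z a] at h7
        have h9 : (9 / 10) * t ≤ W.d a r := by
          rw [hbb] at h6
          rw [hκ'] at hazt
          linarith
        have h10 := hw.lb a r (Walk.cons hav g1') (by
          have hC : C1 * d1 ≤ 9 / 10 := by unfold C1 d1; norm_num
          have hC0 : 0 ≤ C1 * d1 := by unfold C1 d1; positivity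
          have := mul_le_mul hC hρ't hρ'a.le (by norm_num)
          linarith)
        unfold c2 at h10
        rw [hκ', hcp] at h4
        rw [hbb] at hd
        linarith

end Vale.Agent.P235.STO.H742
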