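/-
P235-ST (helper742).  Treewidth at most `k` is closed under gluing along an edge; hence graphs of
treewidth at most `k` are edge-isometric with a constant depending on `k` only.
-/
import Vale.Agent.P235.ST.H626.Sums
import Vale.Agent.P235.H957.Final

set_option linter.all false
set_option autoImplicit false

namespace Vale.Agent.P235.ST.H742

open SimpleGraph Vale.Agent.P235 Vale.Agent.P235.ST.H626

section tree

variable {ι κ : Type} {T : SimpleGraph ι} {S : SimpleGraph κ} {i0 : ι} {j0 : κ}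

/-- two disjoint trees joined by an edge -/
theorem tree_join [Finite ι] [Finite κ] (hT : T.IsTree) (hS : S.IsTree) :
    ((T ⊕g S) ⊔ edge (Sum.inl i0) (Sum.inr j0)).IsTree := by
  classical
  have := Fintype.ofFinite ι
  have := Fintype.ofFinite κ
  rw [isTree_iff_connected_and_card] at hT hS ⊢
  refine ⟨hT.1.sum_sup_edge hS.1, ?_⟩
  have h1 : Nat.card ((T ⊕g S) ⊔ edge (Sum.inl i0) (Sum.inr j0)).edgeSet =
      Nat.card (T ⊕g S).edgeSet + 1 := by
    have h := card_edgeFinset_sup_edge (G := T ⊕g S) (s := Sum.inl i0) (t := Sum.inr j0)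
      (not_adj_sum_inl_inr _ _) (by simp)
    rw [edgeFinset_card, edgeFinset_card] at h
    rw [Nat.card_eq_fintype_card, Nat.card_eq_fintype_card]
    convert h using 2
  have h2 : Nat.card (T ⊕g S).edgeSet = Nat.card T.edgeSet + Nat.card S.edgeSet := by
    rw [Nat.card_congr edgeSetSumEquiv, Nat.card_sum]
  rw [h1, h2, Nat.card_sum]
  omega

/-- connected sets of the joined tree -/
theorem join_induce {P : Set ι} {Q : Set κ} (hP : (T.induce P).Preconnected)
    (hQ : (S.induce Q).Preconnected)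
    (h : ∀ i ∈ P, ∀ j ∈ Q, i0 ∈ P ∧ j0 ∈ Q) :
    (((T ⊕g S) ⊔ edge (Sum.inl i0) (Sum.inr j0)).induce
      {z | Sum.elim (fun i => i ∈ P) (fun j => j ∈ Q) z}).Preconnected := by
  set R := (T ⊕g S) ⊔ edge (Sum.inl i0) (Sum.inr j0) with hR
  let φ : T.induce P →g R.induce {z | Sum.elim (fun i => i ∈ P) (fun j => j ∈ Q) z} :=
    { toFun := fun x => ⟨Sum.inl x.1, x.2⟩
      map_rel' := fun {x y} hxy => by
        show R.Adj (Sum.inl x.1) (Sum.inl y.1)
        rw [hR]
        exact Or.inl (sum_adj_inl.2 hxy) }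
  let ψ : S.induce Q →g R.induce {z | Sum.elim (fun i => i ∈ P) (fun j => j ∈ Q) z} :=
    { toFun := fun x => ⟨Sum.inr x.1, x.2⟩
      map_rel' := fun {x y} hxy => by
        show R.Adj (Sum.inr x.1) (Sum.inr y.1)
        rw [hR]
        exact Or.inl (sum_adj_inr.2 hxy) }
  have key : ∀ (i : ι) (hi : i ∈ P) (j : κ) (hj : j ∈ Q),
      (R.induce {z | Sum.elim (fun i => i ∈ P) (fun j => j ∈ Q) z}).Reachable
        ⟨Sum.inl i, hi⟩ ⟨Sum.inr j, hj⟩ := by
    intro i hi j hj
    obtain ⟨h1, h2⟩ := h i hi j hj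
    have e1 := (hP ⟨i, hi⟩ ⟨i0, h1⟩).map φ
    have e2 := (hQ ⟨j0, h2⟩ ⟨j, hj⟩).map ψ
    have e3 : (R.induce {z | Sum.elim (fun i => i ∈ P) (fun j => j ∈ Q) z}).Adj
        ⟨Sum.inl i0, h1⟩ ⟨Sum.inr j0, h2⟩ := by
      show R.Adj (Sum.inl i0) (Sum.inr j0)
      rw [hR]
      exact Or.inr (by simp [edge_adj])
    exact e1.trans (e3.reachable.trans e2)
  rintro ⟨x | x, hx⟩ ⟨y | y, hy⟩
  · exact (hP ⟨x, hx⟩ ⟨y, hy⟩).map φ
  · exact key x hx y hy
  · exact (key y hy x hx).symm
  · exact (hQ ⟨x, hx⟩ ⟨y, hy⟩).map ψ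

end tree

/-- treewidth at most `k` is closed under gluing along an edge -/
theorem tw_glue {k : ℕ} {V W : Type} {G : SimpleGraph V} {H : SimpleGraph W} {a b : V} {s t : W}
    (hab : G.Adj a b) (hst : H.Adj s t) (hG : TreewidthLE G k) (hH : TreewidthLE H k) :
    TreewidthLE (GG G H a b s t) k := by
  classical
  obtain ⟨ι, hι, T, B, hT, hBv, hBe, hBc, hBk⟩ := hG
  obtain ⟨κ, hκ, S, C, hS, hCv, hCe, hCc, hCk⟩ := hH
  obtain ⟨i0, hai, hbi⟩ := hBe a b hab
  obtain ⟨j0, hsj, htj⟩ := hCe s t hst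
  have hi2 : Function.Injective (i2 a b s t) := i2_inj hab.ne hst.ne
  refine ⟨ι ⊕ κ, inferInstance, (T ⊕g S) ⊔ edge (Sum.inl i0) (Sum.inr j0),
    Sum.elim (fun i => (B i).image Sum.inl) (fun j => (C j).image (i2 a b s t)),
    tree_join hT hS, ?_, ?_, ?_, ?_⟩
  · rintro (x | y)
    · obtain ⟨i, hi⟩ := hBv x
      exact ⟨Sum.inl i, Finset.mem_image.2 ⟨x, hi, rfl⟩⟩
    · obtain ⟨j, hj⟩ := hCv y.1
      exact ⟨Sum.inr j, Finset.mem_image.2 ⟨y.1, hj, i2_r y.2⟩⟩
  · rintro x y (⟨u, v, huv, rfl, rfl⟩ | ⟨u, v, huv, rfl, rfl, -⟩)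
    · obtain ⟨i, hu, hv⟩ := hBe u v huv
      exact ⟨Sum.inl i, Finset.mem_image.2 ⟨u, hu, rfl⟩, Finset.mem_image.2 ⟨v, hv, rfl⟩⟩
    · obtain ⟨j, hu, hv⟩ := hCe u v huv
      exact ⟨Sum.inr j, Finset.mem_image.2 ⟨u, hu, rfl⟩, Finset.mem_image.2 ⟨v, hv, rfl⟩⟩
  · intro z
    -- the bags containing `z`
    have hset : ∀ (P : Set ι) (Q : Set κ),
        (∀ i, z ∈ (B i).image Sum.inl ↔ i ∈ P) →
        (∀ j, z ∈ (C j).image (i2 a b s t) ↔ j ∈ Q) →
        (T.induce P).Preconnected → (S.induce Q).Preconnected →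
        (∀ i ∈ P, ∀ j ∈ Q, i0 ∈ P ∧ j0 ∈ Q) →
        (((T ⊕g S) ⊔ edge (Sum.inl i0) (Sum.inr j0)).induce
          {t' | z ∈ Sum.elim (fun i => (B i).image Sum.inl)
            (fun j => (C j).image (i2 a b s t)) t'}).Preconnected := by
      intro P Q hP hQ h1 h2 h3
      have h4 := join_induce (i0 := i0) (j0 := j0) h1 h2 h3
      have e : {t' : ι ⊕ κ | z ∈ Sum.elim (fun i => (B i).image Sum.inl)
            (fun j => (C j).image (i2 a b s t)) t'} =
          {z | Sum.elim (fun i => i ∈ P) (fun j => j ∈ Q) z} := by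
        ext (i | j)
        · exact hP i
        · exact hQ j
      rw [e]
      exact h4
    have hempty : (S.induce (∅ : Set κ)).Preconnected := fun x => x.2.elim
    have hempty' : (T.induce (∅ : Set ι)).Preconnected := fun x => x.2.elim
    rcases z with x | y
    · have hB : ∀ i, (Sum.inl x : GV V s t) ∈ (B i).image Sum.inl ↔ i ∈ {i | x ∈ B i} := by
        intro i
        simp
      by_cases hxa : x = a
      · subst hxa
        refine hset {i | x ∈ B i} {j | s ∈ C j} hB ?_ (hBc x) (hCc s) fun _ _ _ _ => ⟨hai, hsj⟩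
        intro j
        rw [Finset.mem_image]
        constructor
        · rintro ⟨y, hy, hyx⟩
          have : y = s := hi2 (hyx.trans i2_s.symm)
          exact this ▸ hy
        · intro hj
          exact ⟨s, hj, i2_s⟩
      · by_cases hxb : x = b
        · subst hxb
          refine hset {i | x ∈ B i} {j | t ∈ C j} hB ?_ (hBc x) (hCc t) fun _ _ _ _ => ⟨hbi, htj⟩
          intro j
          rw [Finset.mem_image]
          constructor
          · rintro ⟨y, hy, hyx⟩
            have : y = t := hi2 (hyx.trans (i2_t hst.ne).symm)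
            exact this ▸ hy
          · intro hj
            exact ⟨t, hj, i2_t hst.ne⟩
        · refine hset {i | x ∈ B i} ∅ hB ?_ (hBc x) hempty fun _ _ j hj => hj.elim
          intro j
          rw [Finset.mem_image]
          constructor
          · rintro ⟨y, hy, hyx⟩
            exfalso
            by_cases h : y ≠ s ∧ y ≠ t
            · rw [i2_r h] at hyx
              simp at hyx
            · have : y = s ∨ y = t := by tauto
              rcases this with rfl | rfl
              · rw [i2_s] at hyx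
                exact hxa (Sum.inl.inj hyx).symm
              · rw [i2_t hst.ne] at hyx
                exact hxb (Sum.inl.inj hyx).symm
          · intro hj
            exact hj.elim
    · refine hset ∅ {j | y.1 ∈ C j} ?_ ?_ hempty' (hCc y.1) fun i hi => hi.elim
      · intro i
        simp
      · intro j
        rw [Finset.mem_image]
        constructor
        · rintro ⟨y', hy', h⟩
          have : y' = y.1 := hi2 (h.trans (i2_r y.2).symm)
          exact this ▸ hy'
        · intro hj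
          exact ⟨y.1, hj, i2_r y.2⟩
  · rintro (i | j)
    · exact Finset.card_image_le.trans (hBk i)
    · exact Finset.card_image_le.trans (hCk j)

/-- connected graphs of treewidth at most `k` -/
def TwC (k : ℕ) (V : Type) (G : SimpleGraph V) : Prop := G.Connected ∧ TreewidthLE G k

theorem glueClosed_tw (k : ℕ) : GlueClosed (TwC k) := by
  rintro V W _ _ G H a b s t hab hst ⟨hG, hG'⟩ ⟨hH, hH'⟩
  exact ⟨gg_connected hG hH hab hst, tw_glue hab hst hG' hH'⟩

/-- **Connected graphs of treewidth at most `k` are `EdgeIso K` with `K` depending on `k` only.** -/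
theorem tw_edgeIso (k : ℕ) : ∃ K : ℝ, 1 ≤ K ∧ ∀ (V : Type) [Finite V] (G : SimpleGraph V),
    G.Connected → TreewidthLE G k → EdgeIso G K := by
  obtain ⟨C, hC⟩ := H957.tw_bounded k
  refine ⟨max C 1, le_max_right _ _, fun V _ G hG h => ?_⟩
  exact edgeIso_of_glueClosed (glueClosed_tw k) (fun _ _ h => h.1) (le_max_right _ _)
    (fun V _ G h => (hC V G h.1 h.2).mono (le_max_left _ _)) V G ⟨hG, h⟩

end Vale.Agent.P235.ST.H742
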