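/-
P235-ST (helper742).  `TwNon` (helper303's `tw_noncross`).
-/
import Vale.Agent.P235.ST.H742.Vortex
import Vale.Agent.P235.ST.H303.TwNon

set_option linter.all false
set_option autoImplicit false

namespace Vale.Agent.P235.ST.H742

theorem twNon : TwNon := fun X _ M n w hn x B a b c d e f =>
  H303.tw_noncross M hn x B a b c d e f

end Vale.Agent.P235.ST.H742
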