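/-
P235-ST (helper742).  Planar graphs with a vortex have bounded `c₁`, and the class of all operations
over them.
-/
import Vale.Agent.P235.ST.H742.VortexTw
import Vale.Agent.P235.ST.H690.V2

set_option linter.all false
set_option autoImplicit false

namespace Vale.Agent.P235.ST.H742

open SimpleGraph Vale.Agent.P235 Vale.Agent.P235.ST.H690

/-- Planar graphs with a vortex of depth `w`: for some vertex set `W` and distinct vertices
`x 0, …, x (n - 1)` outside `W` there are bags `B 0, …, B (n - 1)` contained in `W` and the `x i`,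
of at most `w + 1` vertices, with `x i ∈ B i`, which cover `W` and every edge with an end in `W`,
and in which every vertex occurs in an interval; two walks of `G - W` joining `x a` to `x c` and
`x b` to `x d` with `a < b < c < d` meet; and the components left after deleting `W` and the `x i`
have at most one vertex or are planar. -/
def PlaneVortex (w : ℕ) (V : Type) (G : SimpleGraph V) : Prop :=
  ∃ (W : Set V) (n : ℕ) (x : Fin n → V) (B : Fin n → Finset V), 0 < n ∧ Vortex G W x B w ∧
    ∀ u ∉ W ∪ Set.range x, (compSet G (W ∪ Set.range x) u).Subsingleton ∨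
      ∃ σ : Equiv.Perm (G.induce (compSet G (W ∪ Set.range x) u)).Dart,
        PlaneMap (G.induce (compSet G (W ∪ Set.range x) u)) σ

/-- one vertex, or plane -/
def PlaneOr (V : Type) (G : SimpleGraph V) : Prop :=
  Subsingleton V ∨ ∃ σ : Equiv.Perm G.Dart, PlaneMap G σ

theorem planar_vortex_of (hR : ConRetr PlaneOr)
    (w : ℕ) : ∃ K : ℝ, ∀ (V : Type) [Finite V] (G : SimpleGraph V), G.Connected →
      PlaneVortex w V G → DistortionLE G K := by
  obtain ⟨K0, hK0⟩ := planarC
  obtain ⟨K, hK⟩ := vortex_bounded twNon hR ⟨K0, fun V _ G hc h => by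
    rcases h with h | h
    · exact distortion_subsingleton _ hc.nonempty
    · exact hK0 V G hc h⟩ w
  exact ⟨K, fun V _ G hc ⟨W, n, x, B, hn, hv, hcomp⟩ => hK V G hc ⟨W, n, x, B, hn, hv,
    fun u hu => (hcomp u hu).imp (fun h => h.coe_sort) fun h => h⟩⟩

theorem allOps_vortex_of (hR : ConRetr PlaneOr) (w j : ℕ) : ∃ K : ℝ, ∀ (V : Type) [Finite V] (G : SimpleGraph V), G.Connected →
      AllOps (fun V G => NearGenus w w V G ∨ TreewidthLE G w ∨ PlaneVortex w V G ∨
        DistortionLE G w) w j G → DistortionLE G K := by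
  obtain ⟨K, hK⟩ := planarC
  have hC0 : (1 : ℝ) ≤ max 1 K := le_max_left _ _
  have h : PlanarC (max 1 K) := fun V _ G hc hσ => (hK V G hc hσ).mono (le_max_right _ _)
  obtain ⟨A1, hA1, h1⟩ := near_c hC0 h
  obtain ⟨K2, hK2⟩ := H957.tw_bounded w
  obtain ⟨K3, hK3⟩ := planar_vortex_of hR w
  obtain ⟨K', hK'⟩ := allOps_bounded
    (max (A1 * (Real.log (w + 2) + Real.log (w + 2))) (max K2 (max K3 w))) w j
  refine ⟨K', fun V _ G hc hG => hK' _ (fun V _ G hc hG => ?_) V G hc hG⟩
  rcases hG with hG | hG | hG | hG
  · exact (h1 w w V G hc hG).mono (le_max_left _ _)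
  · exact (hK2 V G hc hG).mono ((le_max_left _ _).trans (le_max_right _ _))
  · exact (hK3 V G hc hG).mono
      (((le_max_left _ _).trans (le_max_right _ _)).trans (le_max_right _ _))
  · exact hG.mono (((le_max_right _ _).trans (le_max_right _ _)).trans (le_max_right _ _))

end Vale.Agent.P235.ST.H742
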