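/-
P235-ST (helper742).  Planar graphs with a vortex have bounded `c₁`: the end.  V1 is helper200's
`retr`.
-/
import Vale.Agent.P235.ST.H742.VortexFin
import Vale.Agent.P235.ST.H742.Cuts
import Vale.Agent.P235.R2.H582.KprAll
import Vale.Agent.P235.ST.H200.Retr

set_option linter.all false
set_option autoImplicit false

namespace Vale.Agent.P235.ST.H742

open SimpleGraph Vale.Agent.P235 Vale.Agent.P235.ST.H690

/-- connected random retractions onto any set whose complement is plane -/
theorem conRetr : ConRetr PlaneOr :=
  ⟨3000 * 314 * 314, by norm_num, fun V _ G ℓ hc hℓ X hX hcomp =>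
    H200R.retr hc hℓ hX fun D ε hD hε => cuts_of Kpr.kpr hc hℓ
      (fun u hu => (hcomp u hu).imp (fun h => Set.subsingleton_coe _ |>.1 h) fun h => h) hD hε⟩

/-- **Planar graphs with a vortex of depth `w` have bounded `c₁`.** -/
theorem planar_vortex (w : ℕ) : ∃ K : ℝ, ∀ (V : Type) [Finite V] (G : SimpleGraph V),
    G.Connected → PlaneVortex w V G → DistortionLE G K :=
  planar_vortex_of conRetr w

/-- **All operations, iterated, over graphs of bounded near-genus, bounded treewidth, planar graphs
with a vortex of depth `w` and graphs with `c₁ ≤ w`.** -/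
theorem allOps_vortex (w j : ℕ) : ∃ K : ℝ, ∀ (V : Type) [Finite V] (G : SimpleGraph V),
    G.Connected → AllOps (fun V G => NearGenus w w V G ∨ TreewidthLE G w ∨ PlaneVortex w V G ∨
      DistortionLE G w) w j G → DistortionLE G K :=
  allOps_vortex_of conRetr w j

end Vale.Agent.P235.ST.H742
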